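import Vale.Agent.P193.SV.Simple
import Vale.Agent.P193.Statement

/-!
P193, Thm B: a nice envelope gives a finitely presented simple one.
-/

namespace Vale.P193.SV

/-- A finitely presented group acting faithfully and 2-transitively on an infinite set, with a finitely generated
point stabiliser, embeds in a finitely presented simple group; so does every subgroup of it. -/
theorem simple_of_nice {G : Type} [Group G] (h : NiceEnvelope G) : SimpleEnvelope G := by
  obtain ⟨L, instL, S, instS, -, hfp, hfaith, hinf, htrans, hstab, i, hi⟩ := h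
  classical
  obtain ⟨n, ψ, hψ, R, hR, hker⟩ := hfp.out
  obtain ⟨s0⟩ := (Infinite.nonempty S)
  obtain ⟨s1, h1⟩ := exists_ne s0
  obtain ⟨s2, h2⟩ := ({s0, s1} : Finset S).exists_notMem
  simp only [Finset.mem_insert, Finset.mem_singleton, not_or] at h2
  obtain ⟨g1, hg1, -⟩ := htrans s0 s1 s1 s0 h1.symm h1
  obtain ⟨g2, hg2, -⟩ := htrans s0 s1 s2 s0 h1.symm h2.1
  obtain ⟨T, hT⟩ := hstab s0
  let D : Setup L S :=
    { n := n
      ψ := ψ
      ψ_surj := hψ
      relsL := R
      relsL_finite := hR
      ψ_ker := hker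
      s0 := s0
      stab := T
      stab_closure := hT
      g1 := g1
      g1_ne := by rw [hg1]; exact h1
      g2 := g2
      g2_ne := by rw [hg2]; exact h2.1
      g12_ne := by rw [hg1, hg2]; exact Ne.symm h2.2
      faithful := fun g hg => hfaith.eq_of_smul_eq_smul fun s => by rw [hg s, one_smul]
      trans2 := htrans }
  have hinj : Function.Injective (D.TH 0) := by
    intro a b hab
    have e : D.ev (D.T a 0) = D.ev (D.T b 0) := congrArg D.ev hab
    rw [Setup.ev_T, Setup.ev_T] at e
    obtain ⟨e', -⟩ := MuS_inj D.s0 D.faithful (show MuS D.s0 1 (tw1 1 0 a) 1 = MuS D.s0 1 (tw1 1 0 b) 1 from e)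
    exact congrFun e' 0
  exact ⟨D.Gam, inferInstance, D.isSimple, D.fp, (D.TH 0).comp i, hinj.comp hi⟩

end Vale.P193.SV
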