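import Mathlib.GroupTheory.GroupAction.Basic
import Mathlib.GroupTheory.Perm.Basic
import Mathlib.Logic.Equiv.Fin.Basic
import Mathlib.GroupTheory.GroupAction.Defs

/-!
P193, Thm B: semantics of the twisted Brin-Thompson group.  The space is `S → ℕ → Bool`; a brick prescribes a prefix
in each coordinate.  Level `n` cuts the space into `n + 1` pieces along the coordinate `s0`.
-/

namespace Vale.P193.SV

/-- The product of Cantor sets indexed by `S`. -/
abbrev Cs (S : Type) : Type := S → ℕ → Bool

/-- A brick: a prefix for each coordinate. -/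
abbrev Brick (S : Type) : Type := S → List Bool

/-- Prepend a list of bits to a sequence. -/
def pre : List Bool → (ℕ → Bool) → ℕ → Bool
  | [], x => x
  | a :: l, x => fun k => Nat.casesOn k a (pre l x)

@[simp] theorem pre_nil (x : ℕ → Bool) : pre [] x = x := rfl

theorem pre_append (l m : List Bool) (x : ℕ → Bool) : pre (l ++ m) x = pre l (pre m x) := by
  induction l with
  | nil => rfl
  | cons a l ih => simp [pre, ih]

theorem pre_apply_lt (l : List Bool) (x : ℕ → Bool) (k : ℕ) (hk : k < l.length) : pre l x k = l[k] := by
  induction l generalizing k with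
  | nil => simp at hk
  | cons a l ih =>
    cases k with
    | zero => rfl
    | succ k => simpa [pre] using ih k (by simpa using hk)

theorem pre_apply_add (l : List Bool) (x : ℕ → Bool) (k : ℕ) : pre l x (l.length + k) = x k := by
  induction l with
  | nil => simp
  | cons a l ih =>
    have : (a :: l).length + k = (l.length + k) + 1 := by simp; omega
    rw [this]; exact ih

theorem pre_injective (l : List Bool) : Function.Injective (pre l) := fun x y h => funext fun k => by
  rw [← pre_apply_add l x k, h, pre_apply_add]

variable {S : Type}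

/-- The point map of a brick. -/
def hb (b : Brick S) (x : Cs S) : Cs S := fun s => pre (b s) (x s)

/-- Composition of bricks. -/
def bapp (b c : Brick S) : Brick S := fun s => b s ++ c s

theorem hb_bapp (b c : Brick S) (x : Cs S) : hb (bapp b c) x = hb b (hb c x) :=
  funext fun _ => pre_append _ _ _

theorem hb_injective (b : Brick S) : Function.Injective (hb b) := fun _ _ h =>
  funext fun s => pre_injective (b s) (congrFun h s)

@[simp] theorem hb_nil (x : Cs S) : hb (fun _ => ([] : List Bool)) x = x := rfl

theorem bapp_assoc (a b c : Brick S) : bapp (bapp a b) c = bapp a (bapp b c) :=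
  funext fun _ => List.append_assoc _ _ _

theorem bapp_left_cancel {a b c : Brick S} (h : bapp a b = bapp a c) : b = c :=
  funext fun s => List.append_cancel_left (congrFun h s)

@[simp] theorem bapp_nil_left (b : Brick S) : bapp (fun _ => []) b = b := rfl

@[simp] theorem bapp_nil_right (b : Brick S) : bapp b (fun _ => []) = b :=
  funext fun _ => List.append_nil _

variable [DecidableEq S]

/-- The brick with the single constraint `w` at `s`. -/
def bat (s : S) (w : List Bool) : Brick S := Function.update (fun _ => []) s w

theorem bat_nil (s : S) : bat s [] = (fun _ => [] : Brick S) := by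
  funext t; simp only [bat, Function.update_apply]; split <;> rfl

theorem bat_cons (s : S) (a : Bool) (w : List Bool) : bat s (a :: w) = bapp (bat s [a]) (bat s w) := by
  funext t; simp only [bapp, bat, Function.update_apply]; split <;> rfl

/-- Cut the space in two halves along `s`. -/
def halfEquiv (s : S) : Bool × Cs S ≃ Cs S where
  toFun p := hb (bat s [p.1]) p.2
  invFun x := (x s 0, Function.update x s fun k => x s (k + 1))
  left_inv := fun ⟨a, x⟩ => by
    refine Prod.ext ?_ (funext fun t => ?_)
    · simp [hb, bat, pre]
    · by_cases h : t = s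
      · subst h; simp [hb, bat, pre]
      · simp [hb, bat, h]
  right_inv x := by
    funext t
    by_cases h : t = s
    · subst h
      funext k
      cases k <;> simp [hb, bat, pre]
    · simp [hb, bat, h]

/-- The constraint of piece `j` of level `n` at `s0`. -/
def vine : ℕ → ℕ → List Bool
  | 0, _ => []
  | _ + 1, 0 => [false]
  | n + 1, j + 1 => true :: vine n j

/-- The pieces of level `n`. -/
def piece (s0 : S) (n : ℕ) (j : Fin (n + 1)) : Brick S := bat s0 (vine n j)

theorem piece_zero (s0 : S) (n : ℕ) : piece s0 (n + 1) 0 = bat s0 [false] := rfl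

theorem piece_succ (s0 : S) (n : ℕ) (j : Fin (n + 1)) :
    piece s0 (n + 1) j.succ = bapp (bat s0 [true]) (piece s0 n j) := by
  unfold piece
  rw [← bat_cons]
  rfl

/-- The decomposition of the space into the pieces of level `n`. -/
def pieces (s0 : S) : (n : ℕ) → Fin (n + 1) × Cs S ≃ Cs S
  | 0 => Equiv.uniqueProd (Cs S) (Fin 1)
  | n + 1 =>
    { toFun := fun p =>
        Fin.cases (motive := fun _ => Cs S) (halfEquiv s0 (false, p.2))
          (fun j => halfEquiv s0 (true, pieces s0 n (j, p.2))) p.1
      invFun := fun x =>
        let q := (halfEquiv s0).symm x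
        if q.1 = true then (((pieces s0 n).symm q.2).1.succ, ((pieces s0 n).symm q.2).2) else (0, q.2)
      left_inv := fun ⟨j, x⟩ => by
        induction j using Fin.cases with
        | zero => simp
        | succ j => simp
      right_inv := fun x => by
        obtain ⟨⟨a, y⟩, rfl⟩ := (halfEquiv s0).surjective x
        cases a <;> simp }

theorem pieces_apply (s0 : S) : ∀ (n : ℕ) (j : Fin (n + 1)) (x : Cs S), pieces s0 n (j, x) = hb (piece s0 n j) x
  | 0, j, x => by
    simp [pieces, piece, vine, bat_nil]
  | n + 1, j, x => by
    induction j using Fin.cases with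
    | zero => simp [pieces, piece_zero, halfEquiv]
    | succ j =>
      rw [piece_succ, hb_bapp, ← pieces_apply s0 n j x]
      rfl

theorem exists_piece (s0 : S) (n : ℕ) (x : Cs S) : ∃ j y, hb (piece s0 n j) y = x :=
  ⟨((pieces s0 n).symm x).1, ((pieces s0 n).symm x).2, by rw [← pieces_apply, Prod.mk.eta, Equiv.apply_symm_apply]⟩

theorem piece_inj (s0 : S) (n : ℕ) {i j : Fin (n + 1)} {x y : Cs S}
    (h : hb (piece s0 n i) x = hb (piece s0 n j) y) : i = j ∧ x = y := by
  rw [← pieces_apply, ← pieces_apply] at h
  simpa using (pieces s0 n).injective h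

/-- Two maps agreeing on every piece are equal. -/
theorem perm_ext (s0 : S) (n : ℕ) {f f' : Equiv.Perm (Cs S)}
    (h : ∀ j x, f (hb (piece s0 n j) x) = f' (hb (piece s0 n j) x)) : f = f' := by
  refine Equiv.ext fun z => ?_
  obtain ⟨j, y, rfl⟩ := exists_piece s0 n z
  exact h j y

theorem vine_half : ∀ n : ℕ, vine n n ++ [false] = vine (n + 1) n ∧ vine n n ++ [true] = vine (n + 1) (n + 1)
  | 0 => ⟨rfl, rfl⟩
  | n + 1 => ⟨congrArg (true :: ·) (vine_half n).1, congrArg (true :: ·) (vine_half n).2⟩

theorem vine_stable : ∀ n j : ℕ, j < n → vine (n + 1) j = vine n j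
  | 0, _, h => absurd h (Nat.not_lt_zero _)
  | _ + 1, 0, _ => rfl
  | n + 1, j + 1, h => congrArg (true :: ·) (vine_stable n j (Nat.lt_of_succ_lt_succ h))

theorem hb_pieces_false (s0 : S) (n : ℕ) (x : Cs S) :
    hb (piece s0 n (Fin.last n)) (hb (bat s0 [false]) x) = hb (piece s0 (n + 1) (Fin.last n).castSucc) x := by
  rw [← hb_bapp]
  congr 1
  funext t
  simp only [bapp, piece, bat, Function.update_apply]
  split
  · simpa using (vine_half n).1
  · rfl

theorem hb_pieces_true (s0 : S) (n : ℕ) (x : Cs S) :
    hb (piece s0 n (Fin.last n)) (hb (bat s0 [true]) x) = hb (piece s0 (n + 1) (Fin.last (n + 1))) x := by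
  rw [← hb_bapp]
  congr 1
  funext t
  simp only [bapp, piece, bat, Function.update_apply]
  split
  · simpa using (vine_half n).2
  · rfl

section Twist

variable {L : Type} [Group L] [MulAction L S]

omit [DecidableEq S] in
/-- Permutation of the coordinates. -/
def tw (g : L) : Equiv.Perm (Cs S) where
  toFun x s := x (g⁻¹ • s)
  invFun x s := x (g • s)
  left_inv x := by funext s; simp
  right_inv x := by funext s; simp

omit [DecidableEq S] in
@[simp] theorem tw_apply (g : L) (x : Cs S) (s : S) : tw g x s = x (g⁻¹ • s) := rfl

omit [DecidableEq S] in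
theorem tw_mul (g g' : L) (x : Cs S) : tw (g * g') x = tw g (tw g' x) := by
  funext s; simp [mul_smul]

omit [DecidableEq S] in
@[simp] theorem tw_one (x : Cs S) : tw (1 : L) x = x := by funext s; simp

theorem tw_half (g : L) (s : S) (a : Bool) (x : Cs S) :
    tw g (hb (bat s [a]) x) = hb (bat (g • s) [a]) (tw g x) := by
  funext t
  by_cases h : t = g • s
  · subst h; simp [hb, bat]
  · have h' : g⁻¹ • t ≠ s := fun e => h (by rw [← e, smul_inv_smul])
    simp [hb, bat, h, h']

variable (s0 : S)

/-- The element of level `n` with permutation `π` and twists `g`. -/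
def MuS (n : ℕ) (g : Fin (n + 1) → L) (π : Equiv.Perm (Fin (n + 1))) : Equiv.Perm (Cs S) :=
  (pieces s0 n).symm.trans
    (({ toFun := fun p => (π p.1, tw (g p.1) p.2)
        invFun := fun p => (π.symm p.1, (tw (g (π.symm p.1))).symm p.2)
        left_inv := fun p => by simp
        right_inv := fun p => by simp } : Fin (n + 1) × Cs S ≃ Fin (n + 1) × Cs S).trans (pieces s0 n))

theorem MuS_apply (n : ℕ) (g : Fin (n + 1) → L) (π : Equiv.Perm (Fin (n + 1))) (j : Fin (n + 1)) (x : Cs S) :
    MuS s0 n g π (hb (piece s0 n j) x) = hb (piece s0 n (π j)) (tw (g j) x) := by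
  rw [← pieces_apply s0 n j x, ← pieces_apply]
  simp [MuS]

theorem MuS_one (n : ℕ) : MuS s0 n (1 : Fin (n + 1) → L) 1 = 1 :=
  perm_ext s0 n fun j x => by simp [MuS_apply]

theorem MuS_mul (n : ℕ) (g g' : Fin (n + 1) → L) (π π' : Equiv.Perm (Fin (n + 1))) :
    MuS s0 n g π * MuS s0 n g' π' = MuS s0 n (fun j => g (π' j) * g' j) (π * π') :=
  perm_ext s0 n fun j x => by simp [MuS_apply, Equiv.Perm.mul_apply, tw_mul]

end Twist

/-- The children of level `n + 1`: `none` is the upper half of the split piece `j`, `some i` lies in piece `i`. -/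
abbrev chi {n : ℕ} (j : Fin (n + 1)) : Fin (n + 2) ≃ Option (Fin (n + 1)) := finSuccEquiv' j.succ

/-- The parent of a piece after splitting piece `j`. -/
def par {n : ℕ} (j : Fin (n + 1)) (k : Fin (n + 2)) : Fin (n + 1) := (chi j k).getD j

theorem par_symm {n : ℕ} (j : Fin (n + 1)) (o : Option (Fin (n + 1))) : par j ((chi j).symm o) = o.getD j := by
  unfold par; rw [Equiv.apply_symm_apply]

/-- Split piece `j` along `s`. -/
def SpS (s0 : S) (n : ℕ) (j : Fin (n + 1)) (s : S) : Equiv.Perm (Cs S) :=
  (pieces s0 (n + 1)).symm.trans
    (((Equiv.prodCongr (chi j) (Equiv.refl (Cs S))).trans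
      { toFun := fun p => match p.1 with
          | none => (j, halfEquiv s (true, p.2))
          | some i => if i = j then (j, halfEquiv s (false, p.2)) else (i, p.2)
        invFun := fun p =>
          if p.1 = j then
            (if ((halfEquiv s).symm p.2).1 = true then none else some j, ((halfEquiv s).symm p.2).2)
          else (some p.1, p.2)
        left_inv := fun ⟨o, x⟩ => by
          cases o with
          | none => simp
          | some i =>
            by_cases h : i = j
            · subst h; simp
            · simp [h]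
        right_inv := fun ⟨i, x⟩ => by
          by_cases h : i = j
          · subst h
            obtain ⟨⟨a, y⟩, rfl⟩ := (halfEquiv s).surjective x
            cases a <;> simp
          · simp [h] }).trans (pieces s0 n))

/-- The relative brick of a piece after a split. -/
def part {n : ℕ} (j : Fin (n + 1)) (s : S) (o : Option (Fin (n + 1))) : Brick S :=
  match o with
  | none => bat s [true]
  | some i => if i = j then bat s [false] else fun _ => []

theorem SpS_apply (s0 : S) (n : ℕ) (j : Fin (n + 1)) (s : S) (k : Fin (n + 2)) (x : Cs S) :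
    SpS s0 n j s (hb (piece s0 (n + 1) k) x) =
      hb (piece s0 n (par j k)) (hb (part j s (chi j k)) x) := by
  rw [← pieces_apply, ← pieces_apply]
  simp only [SpS, par, Equiv.trans_apply, Equiv.symm_apply_apply, Equiv.prodCongr_apply, Prod.map,
    Equiv.coe_refl, id]
  cases chi j k with
  | none => simp [part, halfEquiv]
  | some i =>
    by_cases h : i = j
    · subst h; simp [part, halfEquiv]
    · simp [part, h]

/-- Splitting the last piece along `s0` gives the next level. -/
theorem SpS_last (s0 : S) (n : ℕ) : SpS s0 n (Fin.last n) s0 = 1 := by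
  refine perm_ext s0 (n + 1) fun k x => ?_
  obtain ⟨o, rfl⟩ := (chi (Fin.last n)).symm.surjective k
  rw [SpS_apply, par_symm, Equiv.apply_symm_apply, Equiv.Perm.one_apply]
  cases o with
  | none =>
    simp only [Option.getD_none, part, hb_pieces_true]
    simp
  | some i =>
    by_cases h : i = Fin.last n
    · subst h
      simp only [Option.getD_some, part, ↓reduceIte, hb_pieces_false]
      simp [Fin.succAbove_of_castSucc_lt]
    · simp only [Option.getD_some, part, if_neg h, hb_nil]
      have h1 : (i : ℕ) < n := lt_of_le_of_ne (Nat.le_of_lt_succ i.2) fun e => h (Fin.ext (by simpa using e))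
      congr 1
      rw [finSuccEquiv'_symm_some, Fin.succAbove_of_castSucc_lt _ _ (by simp only [Fin.lt_def, Fin.val_castSucc, Fin.val_succ, Fin.val_last]; omega)]
      exact (congrArg (bat s0) (vine_stable n i h1)).symm

section Rule

variable {L : Type} [Group L] [MulAction L S]

/-- The permutation of level `n + 1` lifted through a split. -/
def liftP {n : ℕ} (π : Equiv.Perm (Fin (n + 1))) (j : Fin (n + 1)) : Equiv.Perm (Fin (n + 2)) :=
  ((chi j).trans (Equiv.optionCongr π)).trans (chi (π j)).symm

theorem chi_liftP {n : ℕ} (π : Equiv.Perm (Fin (n + 1))) (j : Fin (n + 1)) (k : Fin (n + 2)) :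
    chi (π j) (liftP π j k) = (chi j k).map π := by
  simp [liftP]

/-- Rule (a). -/
theorem MuS_SpS (s0 : S) (n : ℕ) (g : Fin (n + 1) → L) (π : Equiv.Perm (Fin (n + 1))) (j : Fin (n + 1)) (s : S) :
    MuS s0 n g π * SpS s0 n j s =
      SpS s0 n (π j) (g j • s) * MuS s0 (n + 1) (fun k => g (par j k)) (liftP π j) := by
  refine perm_ext s0 (n + 1) fun k x => ?_
  simp only [Equiv.Perm.mul_apply, SpS_apply, MuS_apply]
  obtain ⟨o, rfl⟩ := (chi j).symm.surjective k
  rw [par_symm, Equiv.apply_symm_apply]
  simp only [par, chi_liftP, Equiv.apply_symm_apply]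
  cases o with
  | none => simp [part, tw_half]
  | some i =>
    by_cases h : i = j
    · subst h; simp [part, tw_half]
    · simp [part, h]

end Rule

end Vale.P193.SV
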