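import Mathlib.GroupTheory.Perm.Sign
import Mathlib.Algebra.Group.Subgroup.Pointwise
import Mathlib.Tactic.Group

/-!
P193, Thm B: a symmetric group maps to any group in which adjacent transpositions have been given images
satisfying the relations of type A.
-/

namespace Vale.P193.SV

variable {G : Type} [Group G]

/-- The relations of type A for `s 0`, ..., `s (n - 1)`. -/
structure TypeA (n : ℕ) (s : ℕ → G) : Prop where
  inv : ∀ i, i < n → s i * s i = 1
  comm : ∀ i j, i + 1 < j → j < n → s i * s j = s j * s i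
  braid : ∀ i, i + 1 < n → s i * s (i + 1) * s i = s (i + 1) * s i * s (i + 1)

section NormalForm

variable (z : ℕ → G)

/-- The subgroup of the first `k` generators. -/
def Wk (k : ℕ) : Subgroup G := Subgroup.closure {x | ∃ i < k, z i = x}

/-- The descending product `z k * ... * z (k + 1 - d)`. -/
def cd (k : ℕ) : ℕ → G
  | 0 => 1
  | d + 1 => cd k d * z (k - d)

variable {z} {n : ℕ}

theorem z_mem_Wk {i k : ℕ} (h : i < k) : z i ∈ Wk z k := Subgroup.subset_closure ⟨i, h, rfl⟩

theorem cd_commute (hz : TypeA n z) {k : ℕ} (hk : k < n) : ∀ d i, d ≤ k + 1 → i + 1 < k + 1 - d →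
    cd z k d * z i = z i * cd z k d := by
  intro d
  induction d with
  | zero => intro i _ _; simp [cd]
  | succ d ih =>
    intro i hd hi
    simp only [cd]
    rw [mul_assoc, ← hz.comm i (k - d) (by omega) (by omega), ← mul_assoc, ih i (by omega) (by omega),
      mul_assoc]

theorem cd_shift (hz : TypeA n z) {k : ℕ} (hk : k < n) : ∀ d i, d ≤ k + 1 → k + 1 - d < i → i ≤ k →
    cd z k d * z i = z (i - 1) * cd z k d := by
  intro d
  induction d with
  | zero => intro i _ h1 h2; omega
  | succ d ih =>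
    intro i hd h1 h2
    by_cases h : i = k - d + 1
    · obtain ⟨e, rfl⟩ : ∃ e, d = e + 1 := ⟨d - 1, by omega⟩
      have hm : k - e = k - (e + 1) + 1 := by omega
      have hb := hz.braid (k - (e + 1)) (by omega)
      have hc := cd_commute hz hk e (k - (e + 1)) (by omega) (by omega)
      subst h
      simp only [cd, hm, Nat.add_sub_cancel]
      calc cd z k e * z (k - (e + 1) + 1) * z (k - (e + 1)) * z (k - (e + 1) + 1)
          = cd z k e * (z (k - (e + 1) + 1) * z (k - (e + 1)) * z (k - (e + 1) + 1)) := by group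
        _ = cd z k e * z (k - (e + 1)) * (z (k - (e + 1) + 1) * z (k - (e + 1))) := by rw [← hb]; group
        _ = z (k - (e + 1)) * (cd z k e * z (k - (e + 1) + 1) * z (k - (e + 1))) := by rw [hc]; group
    · simp only [cd]
      rw [mul_assoc, hz.comm (k - d) i (by omega) (by omega), ← mul_assoc,
        ih i (by omega) (by omega) h2, mul_assoc]

theorem exists_normal_form (hz : TypeA n z) {k : ℕ} (hk : k < n) {w : G} (hw : w ∈ Wk z (k + 1)) :
    ∃ w' ∈ Wk z k, ∃ d ≤ k + 1, w = w' * cd z k d := by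
  have step : ∀ i, i ≤ k → ∀ v : G, (∃ w' ∈ Wk z k, ∃ d ≤ k + 1, v = w' * cd z k d) →
      ∃ w' ∈ Wk z k, ∃ d ≤ k + 1, v * z i = w' * cd z k d := by
    rintro i hi _ ⟨w', hw', d, hd, rfl⟩
    rw [mul_assoc]
    by_cases h1 : i + d = k
    · exact ⟨w', hw', d + 1, by omega, by rw [cd]; simp [show k - d = i by omega]⟩
    by_cases h2 : i + d = k + 1
    · obtain ⟨e, rfl⟩ : ∃ e, d = e + 1 := ⟨d - 1, by omega⟩
      refine ⟨w', hw', e, by omega, ?_⟩
      rw [cd, show k - e = i by omega, mul_assoc (cd z k e), hz.inv i (by omega), mul_one]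
    by_cases h3 : i + d < k
    · refine ⟨w' * z i, mul_mem hw' (z_mem_Wk (by omega)), d, hd, ?_⟩
      rw [cd_commute hz hk d i hd (by omega), mul_assoc]
    · refine ⟨w' * z (i - 1), mul_mem hw' (z_mem_Wk (by omega)), d, hd, ?_⟩
      rw [cd_shift hz hk d i hd (by omega) hi, mul_assoc]
  induction hw using Subgroup.closure_induction_right with
  | one => exact ⟨1, one_mem _, 0, Nat.zero_le _, by simp [cd]⟩
  | mul_right x hx y hy ih =>
    obtain ⟨i, hi, rfl⟩ := hy
    exact step i (by omega) x ih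
  | mul_inv_cancel x hx y hy ih =>
    obtain ⟨i, hi, rfl⟩ := hy
    rw [inv_eq_of_mul_eq_one_left (hz.inv i (by omega))]
    exact step i (by omega) x ih

end NormalForm

/-- The adjacent transposition `(i, i + 1)`. -/
def asw (n i : ℕ) : Equiv.Perm (Fin (n + 1)) :=
  if h : i < n then Equiv.swap ⟨i, by omega⟩ ⟨i + 1, by omega⟩ else 1

theorem asw_castSucc (n : ℕ) (i : Fin n) : asw n i = Equiv.swap i.castSucc i.succ := by
  rw [asw, dif_pos i.2]; rfl

theorem asw_fix (n i : ℕ) (x : Fin (n + 1)) (h : i + 1 < x.val ∨ x.val < i) : asw n i x = x := by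
  unfold asw
  split
  · apply Equiv.swap_apply_of_ne_of_ne <;> (intro e; subst e; simp at h)
  · rfl

theorem asw_typeA (n : ℕ) : TypeA n (asw n) where
  inv i hi := by simp [asw, hi]
  comm i j hij hj := by
    refine (Equiv.Perm.Disjoint.commute fun x => ?_).eq
    by_cases h : i + 1 < x.val
    · exact Or.inl (asw_fix n i x (Or.inl h))
    · exact Or.inr (asw_fix n j x (Or.inr (by omega)))
  braid i hi := by
    have h1 : i < n := by omega
    simp only [asw, dif_pos hi, dif_pos h1]
    have key : ∀ {a b c : Fin (n + 1)}, a ≠ b → a ≠ c → b ≠ c →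
        Equiv.swap a b * Equiv.swap b c * Equiv.swap a b = Equiv.swap b c * Equiv.swap a b * Equiv.swap b c := by
      intro a b c hab hac hbc
      rw [Equiv.swap_mul_swap_mul_swap hab hac, Equiv.swap_comm a b, Equiv.swap_comm b c,
        Equiv.swap_mul_swap_mul_swap hbc.symm hac.symm, Equiv.swap_comm a c]
    refine key ?_ ?_ ?_ <;> (simp [Fin.ext_iff]; try omega)

section Lift

variable {n : ℕ} {s : ℕ → G}

/-- The paired generators. -/
def zz (n : ℕ) (s : ℕ → G) (i : ℕ) : G × Equiv.Perm (Fin (n + 1)) := (s i, asw n i)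

theorem zz_typeA (hs : TypeA n s) : TypeA n (zz n s) where
  inv i hi := Prod.ext (hs.inv i hi) ((asw_typeA n).inv i hi)
  comm i j h h' := Prod.ext (hs.comm i j h h') ((asw_typeA n).comm i j h h')
  braid i h := Prod.ext (hs.braid i h) ((asw_typeA n).braid i h)

theorem Wk_fix {k : ℕ} {w : G × Equiv.Perm (Fin (n + 1))} (hw : w ∈ Wk (zz n s) k) (x : Fin (n + 1))
    (hx : k < x.val) : w.2 x = x := by
  induction hw using Subgroup.closure_induction with
  | mem y hy =>
    obtain ⟨i, hi, rfl⟩ := hy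
    exact asw_fix n i x (Or.inl (by omega))
  | one => rfl
  | mul a b _ _ ha hb => simp [ha, hb]
  | inv a _ ha =>
    rw [Prod.snd_inv, Equiv.Perm.inv_def, Equiv.symm_apply_eq, ha]

theorem cd_move {k : ℕ} (hk : k < n) : ∀ d (hd : d ≤ k + 1),
    (cd (zz n s) k d).2 ⟨k + 1 - d, by omega⟩ = ⟨k + 1, by omega⟩
  | 0, _ => rfl
  | d + 1, hd => by
    simp only [cd, Prod.snd_mul, Equiv.Perm.mul_apply]
    refine Eq.trans (congrArg _ ?_) (cd_move hk d (by omega))
    simp only [zz, asw, dif_pos (show k - d < n by omega)]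
    rw [show (⟨k + 1 - (d + 1), by omega⟩ : Fin (n + 1)) = ⟨k - d, by omega⟩ from
      Fin.ext (Nat.add_sub_add_right k 1 d), Equiv.swap_apply_left]
    exact Fin.ext (show k - d + 1 = k + 1 - d by omega)

theorem eq_one_of_snd (hs : TypeA n s) : ∀ k, k ≤ n → ∀ w ∈ Wk (zz n s) k, w.2 = 1 → w = 1
  | 0, _, w, hw, _ => by
    have h0 : Wk (zz n s) 0 = ⊥ := by
      rw [eq_bot_iff, Wk, Subgroup.closure_le]
      rintro y ⟨i, hi, -⟩
      omega
    rw [h0] at hw
    exact Subgroup.mem_bot.1 hw
  | k + 1, hk, w, hw, h2 => by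
    obtain ⟨w', hw', d, hd, rfl⟩ := exists_normal_form (zz_typeA hs) (by omega) hw
    have h := Equiv.congr_fun h2 ⟨k + 1 - d, by omega⟩
    rw [Prod.snd_mul, Equiv.Perm.mul_apply, cd_move (by omega) d hd, Wk_fix hw' _ (by simp),
      Equiv.Perm.one_apply] at h
    obtain rfl : d = 0 := by have := congrArg Fin.val h; simp only at this; omega
    rw [cd, mul_one] at h2 ⊢
    exact eq_one_of_snd hs k (by omega) w' hw' h2

/-- The homomorphism from the symmetric group. -/
theorem exists_permLift (hs : TypeA n s) :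
    ∃ f : Equiv.Perm (Fin (n + 1)) →* G, ∀ i, i < n → f (asw n i) = s i := by
  let p : Wk (zz n s) n →* Equiv.Perm (Fin (n + 1)) := (MonoidHom.snd G _).comp (Subgroup.subtype _)
  have hinj : Function.Injective p := by
    rw [injective_iff_map_eq_one]
    exact fun w hw => Subtype.ext (eq_one_of_snd hs n le_rfl _ w.2 hw)
  have hsurj : Function.Surjective p := by
    rw [← MonoidHom.mrange_eq_top, ← top_le_iff, ← Equiv.Perm.mclosure_swap_castSucc_succ,
      Submonoid.closure_le]
    rintro _ ⟨i, rfl⟩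
    exact ⟨⟨zz n s i, z_mem_Wk i.2⟩, asw_castSucc n i⟩
  let e := MulEquiv.ofBijective p ⟨hinj, hsurj⟩
  refine ⟨((MonoidHom.fst G _).comp (Subgroup.subtype _)).comp e.symm.toMonoidHom, fun i hi => ?_⟩
  have : e.symm (asw n i) = ⟨zz n s i, z_mem_Wk hi⟩ := e.symm_apply_eq.2 rfl
  simp [this, zz]

end Lift

/-- Two homomorphisms from a symmetric group agreeing on adjacent transpositions are equal. -/
theorem permHom_ext {n : ℕ} {f f' : Equiv.Perm (Fin (n + 1)) →* G} (h : ∀ i, i < n → f (asw n i) = f' (asw n i)) :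
    f = f' := by
  refine MonoidHom.eq_of_eqOn_denseM (Equiv.Perm.mclosure_swap_castSucc_succ n) ?_
  rintro _ ⟨i, rfl⟩
  simpa [asw_castSucc] using h i i.2

end Vale.P193.SV
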