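import Vale.Agent.P193.SV.Shift

/-!
P193, Thm B: the relations of type A and of the twists, at all indices.
-/

namespace Vale.P193.SV

namespace Setup

variable {L S : Type} [Group L] [MulAction L S] [DecidableEq S] (D : Setup L S)

section Sem

theorem PP_comm {i j : ℕ} (h : i + 1 < j) : Commute (D.PS i) (D.PS j) := by
  rw [D.PS_at (show i + 2 ≤ j + 2 by omega), D.PS_at (le_refl (j + 2))]
  show _ * _ = _ * _
  rw [PermS_mul, PermS_mul, (asw_typeA (j + 2)).comm i j h (by omega)]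

theorem PQ_comm {i j : ℕ} (h : i + 1 < j) : Commute (D.PS i) (D.QS j) := by
  rw [D.PS_at (show i + 2 ≤ j + 1 by omega), QS]
  show _ * _ = _ * _
  rw [PermS_mul, PermS_mul, (asw_typeA (j + 1)).comm i j h (by omega)]

theorem tw1_asw {N i j : ℕ} (hj : j < N) (h : i ≠ j ∧ i ≠ j + 1) (g : L) :
    tw1 N i g ∘ (asw N j).symm = tw1 N i g := by
  funext k
  simp only [Function.comp_apply, tw1]
  rw [← Equiv.Perm.inv_def, inv_eq_of_mul_eq_one_left (asw_self hj), val_asw hj]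
  split_ifs <;> first | rfl | omega

theorem TP_comm {g : L} {i j : ℕ} (h : i ≠ j ∧ i ≠ j + 1) : Commute (D.TS g i) (D.PS j) := by
  rw [D.TS_at (show i + 1 ≤ i + j + 2 by omega), D.PS_at (show j + 2 ≤ i + j + 2 by omega)]
  refine Commute.symm ?_
  show _ * _ = _ * _
  rw [PermS_TwS_conj, tw1_asw (by omega) h]

theorem TQ_comm {g : L} {i j : ℕ} (h : i < j) : Commute (D.TS g i) (D.QS j) := by
  rw [D.TS_at (show i + 1 ≤ j + 1 by omega), QS]
  refine Commute.symm ?_
  show _ * _ = _ * _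
  rw [PermS_TwS_conj, tw1_asw (by omega) (by omega)]

theorem tw1_commute {N i j : ℕ} (g g' : L) (h : i ≠ j) : tw1 N i g * tw1 N j g' = tw1 N j g' * tw1 N i g := by
  funext k
  simp only [Pi.mul_apply, tw1]
  split_ifs <;> first | omega | simp

theorem TT_comm {g g' : L} {i j : ℕ} (h : i ≠ j) : Commute (D.TS g i) (D.TS g' j) := by
  rw [D.TS_at (show i + 1 ≤ i + j + 1 by omega), D.TS_at (show j + 1 ≤ i + j + 1 by omega)]
  show _ * _ = _ * _
  rw [TwS_mul, TwS_mul, tw1_commute g g' h]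

theorem P_braid (i : ℕ) : D.PS i * D.PS (i + 1) * D.PS i = D.PS (i + 1) * D.PS i * D.PS (i + 1) := by
  rw [D.PS_at (show i + 2 ≤ i + 3 by omega), D.PS_at (le_refl (i + 1 + 2)), PermS_mul, PermS_mul, PermS_mul,
    PermS_mul, (asw_typeA (i + 3)).braid i (by omega)]

theorem Q_braid (i : ℕ) : D.PS i * D.QS (i + 1) * D.PS i = D.QS (i + 1) * D.PS i * D.QS (i + 1) := by
  rw [D.PS_at (le_refl (i + 2)), QS, PermS_mul, PermS_mul, PermS_mul, PermS_mul,
    (asw_typeA (i + 2)).braid i (by omega)]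

theorem QQ_one (i : ℕ) : D.QS i * D.QS i = 1 := by
  rw [QS, PermS_mul, asw_self (by omega)]
  exact MuS_one D.s0 _

theorem PT_swap (g : L) (i : ℕ) : D.PS i * D.TS g i * D.PS i = D.TS g (i + 1) := by
  rw [D.PS_at (le_refl (i + 2)), D.TS_at (show i + 1 ≤ i + 2 by omega), TS, PermS_TwS_conj, mul_assoc, PermS_mul,
    asw_self (by omega), show PermS (L := L) D.s0 (i + 2) 1 = 1 from MuS_one D.s0 _, mul_one]
  congr 1
  funext k
  simp only [Function.comp_apply, tw1]
  rw [← Equiv.Perm.inv_def, inv_eq_of_mul_eq_one_left (asw_self (n := i + 2) (i := i) (by omega)),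
    val_asw (by omega)]
  split_ifs <;> first | rfl | omega | contradiction

theorem U_eq (g : L) (m : ℕ) : D.QS m * D.TS g m * D.QS m = TwS D.s0 (m + 1) (tw1 (m + 1) (m + 1) g) := by
  rw [QS, TS, PermS_TwS_conj, mul_assoc, PermS_mul,
    asw_self (by omega), show PermS (L := L) D.s0 (m + 1) 1 = 1 from MuS_one D.s0 _, mul_one]
  congr 1
  funext k
  simp only [Function.comp_apply, tw1]
  rw [← Equiv.Perm.inv_def, inv_eq_of_mul_eq_one_left (asw_self (n := m + 1) (i := m) (by omega)),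
    val_asw (by omega)]
  split_ifs <;> first | rfl | omega | contradiction

theorem UT_comm (g g' : L) (m : ℕ) : Commute (D.QS m * D.TS g m * D.QS m) (D.TS g' m) := by
  rw [U_eq, TS]
  show _ * _ = _ * _
  rw [TwS_mul, TwS_mul, tw1_commute g g' (show m + 1 ≠ m by omega)]

end Sem

/-- The named elements of `x 1`. -/
def l1 : List (At L) := [.p 0, .x, .p 1, .p 0]
/-- The named elements of `x 2`. -/
def l2 : List (At L) := .xi :: (l1 ++ [.x])
/-- The named elements of `x 3`. -/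
def l3 : List (At L) := .xi :: (l2 ++ [.x])

theorem prod_l1 : ((l1 (L := L)).map D.at').prod = D.x 1 := by simp [l1, at', x, mul_assoc]
theorem prod_l2 : ((l2 (L := L)).map D.at').prod = D.x 2 := by simp [l2, prod_l1, at', x, mul_assoc]
theorem prod_l3 : ((l3 (L := L)).map D.at').prod = D.x 3 := by simp [l3, prod_l2, at', x, mul_assoc]

theorem mem_short {l : List (At L)} (h : l.length ≤ 20) (h' : ∀ a ∈ l, D.ok a) : l ∈ D.short := ⟨h, h'⟩

theorem eq_of_ev (l₁ l₂ : List (At L)) {a b : D.Gam} (ha : (l₁.map D.at').prod = a) (hb : (l₂.map D.at').prod = b)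
    (h₁ : l₁.length ≤ 20 ∧ ∀ c ∈ l₁, D.ok c) (h₂ : l₂.length ≤ 20 ∧ ∀ c ∈ l₂, D.ok c) (h : D.ev a = D.ev b) :
    a = b := by
  subst ha hb
  exact D.rel l₁ l₂ h₁ h₂ h

theorem x_base : D.x 1 * D.x 3 = D.x 2 * D.x 1 := by
  refine D.eq_of_ev (l1 ++ l3) (l2 ++ l1) (by simp [prod_l1, prod_l3]) (by simp [prod_l1, prod_l2])
    (by simp [l1, l2, l3, ok]) (by simp [l1, l2, ok]) ?_
  have h := SpS_comm D.s0 (n := 4) ⟨1, by omega⟩ ⟨2, by omega⟩ (show 1 < 2 by omega) D.s0 D.s0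
  rw [← D.ev_x 0 4 (by omega) _ rfl, ← D.ev_x 2 (4 + 1) (by omega) _ rfl, ← D.ev_x 1 4 (by omega) _ rfl,
    ← D.ev_x 0 (4 + 1) (by omega) _ rfl] at h
  rwa [map_mul, map_mul]

/-- Shifted sequences moved by `x 1`. -/
structure Fam (Y : ℕ → D.Gam) : Prop where
  sh : D.Sh Y
  step : ∀ m, D.x 1 * Y (m + 3) = Y (m + 2) * D.x 1

variable {D}

theorem Sh.step_up {Y : ℕ → D.Gam} (hY : D.Sh Y) {a b : ℕ} (h : D.x (a + 1) * Y (b + 2) = Y (b + 1) * D.x (a + 1)) :
    D.x (a + 2) * Y (b + 3) = Y (b + 2) * D.x (a + 2) := by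
  rw [D.sh_x a, hY (b + 1)]
  calc D.X⁻¹ * D.x (a + 1) * D.X * (D.X⁻¹ * Y (b + 2) * D.X) = D.X⁻¹ * (D.x (a + 1) * Y (b + 2)) * D.X := by group
    _ = _ := by rw [h, hY b]; group

theorem Fam.mk' {Y : ℕ → D.Gam} (hY : D.Sh Y) (h0 : D.x 1 * Y 3 = Y 2 * D.x 1) (h1 : D.x 1 * Y 4 = Y 3 * D.x 1) :
    D.Fam Y := by
  refine ⟨hY, fun m => ?_⟩
  induction m using Nat.twoStepInduction with
  | zero => exact h0
  | one => exact h1
  | more m ih0 ih1 =>
    have a : D.x 2 * Y (m + 4) = Y (m + 3) * D.x 2 := hY.step_up (a := 0) (b := m + 1) ih0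
    have b : D.x 3 * Y (m + 5) = Y (m + 4) * D.x 3 := hY.step_up (a := 1) (b := m + 2) a
    have e4 : Y (m + 4) = (D.x 2)⁻¹ * Y (m + 3) * D.x 2 := by rw [mul_assoc, ← a]; group
    have e3 : Y (m + 3) = D.x 1 * Y (m + 4) * (D.x 1)⁻¹ := by rw [ih1]; group
    have e5 : Y (m + 5) = (D.x 3)⁻¹ * Y (m + 4) * D.x 3 := by rw [mul_assoc, ← b]; group
    have hx : D.x 3 = (D.x 1)⁻¹ * D.x 2 * D.x 1 := by rw [mul_assoc, ← D.x_base]; group
    show D.x 1 * Y (m + 5) = Y (m + 4) * D.x 1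
    rw [e5, hx]
    nth_rewrite 2 [e4]
    rw [e3]
    group

theorem Fam.far2 {Y : ℕ → D.Gam} (hY : D.Fam Y) {Z : D.Gam} (hx : Commute Z (D.x 2)) (j0 : ℕ) (h0 : j0 ≤ 3)
    (hb : ∀ j, j0 ≤ j → j ≤ 3 → Commute Z (Y j)) : ∀ j, j0 ≤ j → Commute Z (Y j) := by
  intro j hj
  by_cases h : j ≤ 3
  · exact hb j hj h
  · obtain ⟨m, rfl⟩ : ∃ m, j = m + 4 := ⟨j - 4, by omega⟩
    clear hj h
    induction m with
    | zero =>
      have a : D.x 2 * Y 4 = Y 3 * D.x 2 := hY.sh.step_up (a := 0) (b := 1) (hY.step 0)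
      rw [show Y (0 + 4) = (D.x 2)⁻¹ * (Y 3 * D.x 2) by rw [← a]; group]
      exact hx.inv_right.mul_right ((hb 3 h0 le_rfl).mul_right hx)
    | succ m ih =>
      have a : D.x 2 * Y (m + 5) = Y (m + 4) * D.x 2 := hY.sh.step_up (a := 0) (b := m + 2) (hY.step (m + 1))
      rw [show Y (m + 1 + 4) = (D.x 2)⁻¹ * (Y (m + 4) * D.x 2) by rw [← a]; group]
      exact hx.inv_right.mul_right (ih.mul_right hx)

theorem Fam.far3 {Y : ℕ → D.Gam} (hY : D.Fam Y) {Z : D.Gam} (hx : Commute Z (D.x 3)) (j0 : ℕ) (h0 : j0 ≤ 4)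
    (hb : ∀ j, j0 ≤ j → j ≤ 4 → Commute Z (Y j)) : ∀ j, j0 ≤ j → Commute Z (Y j) := by
  intro j hj
  by_cases h : j ≤ 4
  · exact hb j hj h
  · obtain ⟨m, rfl⟩ : ∃ m, j = m + 5 := ⟨j - 5, by omega⟩
    clear hj h
    induction m with
    | zero =>
      have a : D.x 3 * Y 5 = Y 4 * D.x 3 :=
        hY.sh.step_up (a := 1) (b := 2) (hY.sh.step_up (a := 0) (b := 1) (hY.step 0))
      rw [show Y (0 + 5) = (D.x 3)⁻¹ * (Y 4 * D.x 3) by rw [← a]; group]
      exact hx.inv_right.mul_right ((hb 4 h0 le_rfl).mul_right hx)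
    | succ m ih =>
      have a : D.x 3 * Y (m + 6) = Y (m + 5) * D.x 3 :=
        hY.sh.step_up (a := 1) (b := m + 3) (hY.sh.step_up (a := 0) (b := m + 2) (hY.step (m + 1)))
      rw [show Y (m + 1 + 5) = (D.x 3)⁻¹ * (Y (m + 5) * D.x 3) by rw [← a]; group]
      exact hx.inv_right.mul_right (ih.mul_right hx)

/-- Commutation at a fixed distance is shifted. -/
theorem Sh.commute {A B : ℕ → D.Gam} (hA : D.Sh A) (hB : D.Sh B) (d : ℕ) (h : Commute (A 1) (B (1 + d))) (i : ℕ) :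
    Commute (A (i + 1)) (B (i + 1 + d)) :=
  (hA.mul (hB.add d)).eq ((hB.add d).mul hA) h.eq i

variable (D)

theorem fam_p : D.Fam D.p := by
  refine Fam.mk' D.sh_p ?_ ?_
  all_goals
    refine D.eq_of_ev (l1 ++ [.p _]) ([.p _] ++ l1) (by simp [prod_l1, at']; rfl) (by simp [prod_l1, at']; rfl)
      (by simp [l1, ok]) (by simp [l1, ok]) ?_
    rw [map_mul, map_mul, ev_p, ev_p]
    exact D.PS_split_ge (k := 0) (by omega)

theorem fam_q : D.Fam D.q := by
  refine Fam.mk' D.sh_q ?_ ?_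
  all_goals
    refine D.eq_of_ev (l1 ++ [.q _]) ([.q _] ++ l1) (by simp [prod_l1, at']; rfl) (by simp [prod_l1, at']; rfl)
      (by simp [l1, ok]) (by simp [l1, ok]) ?_
    rw [map_mul, map_mul, ev_q, ev_q]
    exact D.QS_split_ge (k := 0) (by omega)

theorem fam_T (g : L) : D.Fam (D.T g) := by
  have key : ∀ i, i = 2 ∨ i = 3 → D.x 1 * D.T g (i + 1) = D.T g i * D.x 1 := by
    intro i hi
    have e := DFunLike.congr_fun (D.hom_ext_gen (f := (MulAut.conj (D.x 1)).toMonoidHom.comp (D.TH (i + 1)))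
      (f' := D.TH i) fun a => ?_) g
    · exact mul_inv_eq_iff_eq_mul.1 (by simpa [TH] using e)
    · show D.x 1 * D.T _ (i + 1) * (D.x 1)⁻¹ = D.T _ i
      rw [mul_inv_eq_iff_eq_mul]
      refine D.eq_of_ev (l1 ++ [.t (D.ψ (FreeGroup.of a)) (i + 1)]) ([.t (D.ψ (FreeGroup.of a)) i] ++ l1)
        (by simp [prod_l1, at']) (by simp [prod_l1, at'])
        (by simp [l1, ok, D.psi_mem_Ext]; omega) (by simp [l1, ok, D.psi_mem_Ext]; omega) ?_
      rw [map_mul, map_mul, ev_T, ev_T]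
      exact D.TS_split_ge (k := 0) (by omega)
  exact Fam.mk' (D.sh_T g) (key 2 (Or.inl rfl)) (key 3 (Or.inr rfl))

theorem commute_of_ev {a b : At L} {x y : D.Gam} (hx : D.at' a = x) (hy : D.at' b = y) (ha : D.ok a) (hb : D.ok b)
    (h : Commute (D.ev x) (D.ev y)) : Commute x y :=
  D.eq_of_ev [a, b] [b, a] (by simp [hx, hy]) (by simp [hx, hy]) (by simp [ha, hb]) (by simp [ha, hb])
    (by rw [map_mul, map_mul, h.eq])

theorem commute_x2 {a : At L} {z : D.Gam} (hz : D.at' a = z) (ha : D.ok a) (h : Commute (D.ev z) (D.ev (D.x 2))) :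
    Commute z (D.x 2) :=
  D.eq_of_ev ([a] ++ l2) (l2 ++ [a]) (by simp [hz, prod_l2]) (by simp [hz, prod_l2]) (by simp [l2, l1, ha]; simp [ok])
    (by simp [l2, l1, ha]; simp [ok]) (by rw [map_mul, map_mul, h.eq])

theorem commute_x3 {a : At L} {z : D.Gam} (hz : D.at' a = z) (ha : D.ok a) (h : Commute (D.ev z) (D.ev (D.x 3))) :
    Commute z (D.x 3) :=
  D.eq_of_ev ([a] ++ l3) (l3 ++ [a]) (by simp [hz, prod_l3]) (by simp [hz, prod_l3]) (by simp [l3, l2, l1, ha]; simp [ok])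
    (by simp [l3, l2, l1, ha]; simp [ok]) (by rw [map_mul, map_mul, h.eq])

/-- `p` commutes with a family from distance two on. -/
theorem p_far {Y : ℕ → D.Gam} (hY : D.Fam Y) (hb : ∀ i j, i < 2 → i + 2 ≤ j → j ≤ 4 → Commute (D.p i) (Y j)) :
    ∀ i j, i + 2 ≤ j → Commute (D.p i) (Y j) := by
  intro i j h
  cases i with
  | zero =>
    refine hY.far2 (D.commute_x2 (a := .p 0) rfl (by simp [ok]) ?_) 2 (by omega)
      (fun j h1 h2 => hb 0 j (by omega) (by omega) (by omega)) j h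
    show Commute (D.ev (D.p 0)) _
    rw [ev_p]
    exact D.PS_split_lt (k := 1) (by omega)
  | succ i =>
    have h1 : ∀ j, 3 ≤ j → Commute (D.p 1) (Y j) := by
      refine hY.far3 (D.commute_x3 (a := .p 1) rfl (by simp [ok]) ?_) 3 (by omega)
        (fun j h1 h2 => hb 1 j (by omega) (by omega) h2)
      show Commute (D.ev (D.p 1)) _
      rw [ev_p]
      exact D.PS_split_lt (k := 2) (by omega)
    have := D.sh_p.commute hY.sh (j - (i + 1)) (h1 _ (by omega)) i
    rwa [show i + 1 + (j - (i + 1)) = j by omega] at this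

theorem p_comm_p : ∀ i j, i + 2 ≤ j → Commute (D.p i) (D.p j) := by
  refine D.p_far D.fam_p fun i j hi h hj => D.commute_of_ev (a := .p i) (b := .p j) rfl rfl ?_ ?_ ?_
  · simp [ok]; omega
  · simp [ok]; omega
  · rw [ev_p, ev_p]; exact D.PP_comm (by omega)

theorem p_comm_q : ∀ i j, i + 2 ≤ j → Commute (D.p i) (D.q j) := by
  refine D.p_far D.fam_q fun i j hi h hj => D.commute_of_ev (a := .p i) (b := .q j) rfl rfl ?_ ?_ ?_
  · simp [ok]; omega
  · simp [ok]; omega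
  · rw [ev_p, ev_q]; exact D.PQ_comm (by omega)

theorem p_comm_T (g : L) : ∀ i j, i + 2 ≤ j → Commute (D.p i) (D.T g j) := by
  refine D.p_far (D.fam_T g) fun i j hi h hj =>
    D.commute_gen (D.TH j) (D.p i) (fun a => D.commute_of_ev (a := .p i) (b := .t _ j) rfl rfl ?_ ?_ ?_) g
  · simp [ok]; omega
  · exact ⟨D.psi_mem_Ext a, by omega⟩
  · show Commute (D.ev (D.p i)) (D.ev (D.T _ j))
    rw [ev_p, ev_T]; exact (D.TP_comm (by omega)).symm

/-- A twist commutes with a family further right. -/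
theorem T_far {Y : ℕ → D.Gam} (hY : D.Fam Y)
    (hb : ∀ a i j, i < 2 → i < j → j ≤ 4 → Commute (D.T (D.ψ (FreeGroup.of a)) i) (Y j)) :
    ∀ g i j, i < j → Commute (D.T g i) (Y j) := by
  intro g i j h
  refine (D.commute_gen (D.TH i) (Y j) (fun a => ?_) g).symm
  show Commute (Y j) (D.T (D.ψ (FreeGroup.of a)) i)
  refine Commute.symm ?_
  cases i with
  | zero =>
    refine hY.far2 (D.commute_x2 (a := .t _ 0) rfl ⟨D.psi_mem_Ext a, by omega⟩ ?_) 1 (by omega)
      (fun j h1 h2 => hb a 0 j (by omega) (by omega) (by omega)) j h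
    show Commute (D.ev (D.T _ 0)) _
    rw [ev_T]
    exact D.TS_split_lt (k := 1) (by omega)
  | succ i =>
    have h1 : ∀ j, 2 ≤ j → Commute (D.T (D.ψ (FreeGroup.of a)) 1) (Y j) := by
      refine hY.far3 (D.commute_x3 (a := .t _ 1) rfl ⟨D.psi_mem_Ext a, by omega⟩ ?_) 2 (by omega)
        (fun j h1 h2 => hb a 1 j (by omega) (by omega) h2)
      show Commute (D.ev (D.T _ 1)) _
      rw [ev_T]
      exact D.TS_split_lt (k := 2) (by omega)
    have := (D.sh_T (D.ψ (FreeGroup.of a))).commute hY.sh (j - (i + 1)) (h1 _ (by omega)) i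
    rwa [show i + 1 + (j - (i + 1)) = j by omega] at this

theorem T_comm_p_gt : ∀ g i j, i < j → Commute (D.T g i) (D.p j) := by
  refine D.T_far D.fam_p fun a i j hi h hj => D.commute_of_ev (a := .t _ i) (b := .p j) rfl rfl ?_ ?_ ?_
  · exact ⟨D.psi_mem_Ext a, by omega⟩
  · simp [ok]; omega
  · rw [ev_p, ev_T]; exact D.TP_comm (by omega)

theorem T_comm_p {g : L} {i j : ℕ} (h : i ≠ j ∧ i ≠ j + 1) : Commute (D.T g i) (D.p j) := by
  by_cases hij : i < j
  · exact D.T_comm_p_gt g i j hij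
  · exact (D.p_comm_T g j i (by omega)).symm

theorem T_comm_q : ∀ g i j, i < j → Commute (D.T g i) (D.q j) := by
  refine D.T_far D.fam_q fun a i j hi h hj => D.commute_of_ev (a := .t _ i) (b := .q j) rfl rfl ?_ ?_ ?_
  · exact ⟨D.psi_mem_Ext a, by omega⟩
  · simp [ok]; omega
  · rw [ev_q, ev_T]; exact D.TQ_comm h

theorem T_comm_T {g g' : L} {i j : ℕ} (h : i ≠ j) : Commute (D.T g i) (D.T g' j) := by
  have key : ∀ g g' i j, i < j → Commute (D.T g i) (D.T g' j) := by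
    intro g g'
    refine D.T_far (D.fam_T g') (fun a i j hi h hj => ?_) g
    refine D.commute_gen (D.TH j) _ (fun b => D.commute_of_ev (a := .t _ i) (b := .t _ j) rfl rfl ?_ ?_ ?_) g'
    · exact ⟨D.psi_mem_Ext a, by omega⟩
    · exact ⟨D.psi_mem_Ext b, by omega⟩
    · show Commute (D.ev (D.T _ i)) (D.ev (D.T _ j))
      rw [ev_T, ev_T]; exact D.TT_comm (by omega)
  rcases Nat.lt_or_gt_of_ne h with h | h
  · exact key g g' i j h
  · exact (key g' g j i h).symm

theorem q_inv : ∀ i, D.q i * D.q i = 1 := by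
  have base : ∀ i, i < 2 → D.q i * D.q i = 1 := fun i hi =>
    D.eq_of_ev [.q i, .q i] [] (by simp [at']) (by simp) (by simp [ok]; omega) (by simp)
      (by rw [map_mul, ev_q, QQ_one, map_one])
  intro i
  cases i with
  | zero => exact base 0 (by omega)
  | succ i => exact (D.sh_q.mul D.sh_q).eq Sh.one (base 1 (by omega)) i

theorem p_braid : ∀ i, D.p i * D.p (i + 1) * D.p i = D.p (i + 1) * D.p i * D.p (i + 1) := by
  have base : ∀ i, i < 2 → D.p i * D.p (i + 1) * D.p i = D.p (i + 1) * D.p i * D.p (i + 1) := fun i hi =>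
    D.eq_of_ev [.p i, .p (i + 1), .p i] [.p (i + 1), .p i, .p (i + 1)] (by simp [at', mul_assoc])
      (by simp [at', mul_assoc]) (by simp [ok]; omega) (by simp [ok]; omega)
      (by simp only [map_mul, ev_p]; exact D.P_braid i)
  intro i
  cases i with
  | zero => exact base 0 (by omega)
  | succ i =>
    exact ((D.sh_p.mul (D.sh_p.add 1)).mul D.sh_p).eq (((D.sh_p.add 1).mul D.sh_p).mul (D.sh_p.add 1))
      (base 1 (by omega)) i

theorem q_braid : ∀ i, D.p i * D.q (i + 1) * D.p i = D.q (i + 1) * D.p i * D.q (i + 1) := by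
  have base : ∀ i, i < 2 → D.p i * D.q (i + 1) * D.p i = D.q (i + 1) * D.p i * D.q (i + 1) := fun i hi =>
    D.eq_of_ev [.p i, .q (i + 1), .p i] [.q (i + 1), .p i, .q (i + 1)] (by simp [at', mul_assoc])
      (by simp [at', mul_assoc]) (by simp [ok]; omega) (by simp [ok]; omega)
      (by simp only [map_mul, ev_p, ev_q]; exact D.Q_braid i)
  intro i
  cases i with
  | zero => exact base 0 (by omega)
  | succ i =>
    exact ((D.sh_p.mul (D.sh_q.add 1)).mul D.sh_p).eq (((D.sh_q.add 1).mul D.sh_p).mul (D.sh_q.add 1))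
      (base 1 (by omega)) i

theorem p_swap (g : L) : ∀ i, D.p i * D.T g i * D.p i = D.T g (i + 1) := by
  have base : D.p 1 * D.T g 1 * D.p 1 = D.T g 2 := by
    have e := DFunLike.congr_fun (D.hom_ext_gen (f := (MulAut.conj (D.p 1)).toMonoidHom.comp (D.TH 1))
      (f' := D.TH 2) fun a => ?_) g
    · have : (D.p 1)⁻¹ = D.p 1 := inv_eq_of_mul_eq_one_right (D.p_inv 1)
      simpa [TH, this] using e
    · show D.p 1 * D.T _ 1 * (D.p 1)⁻¹ = D.T _ 2
      rw [inv_eq_of_mul_eq_one_right (D.p_inv 1)]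
      refine D.eq_of_ev [.p 1, .t _ 1, .p 1] [.t _ 2] (by simp [at', mul_assoc]; rfl) (by simp [at']; rfl)
        (by simp [ok, D.psi_mem_Ext]) (by simp [ok, D.psi_mem_Ext]) ?_
      simp only [map_mul, ev_p, ev_T]
      exact D.PT_swap _ 1
  intro i
  cases i with
  | zero => exact (D.T1_eq g).symm
  | succ i => exact ((D.sh_p.mul (D.sh_T g)).mul D.sh_p).eq ((D.sh_T g).add 1) base i

/-- The twist of the last piece of level `m + 1`. -/
noncomputable def U (g : L) (m : ℕ) : D.Gam := D.q m * D.T g m * D.q m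

theorem sh_U (g : L) : D.Sh (D.U g) := (D.sh_q.mul (D.sh_T g)).mul D.sh_q

theorem U_mul (g g' : L) (m : ℕ) : D.U (g * g') m = D.U g m * D.U g' m := by
  unfold U
  rw [T_mul]
  calc D.q m * (D.T g m * D.T g' m) * D.q m = D.q m * D.T g m * 1 * (D.T g' m * D.q m) := by group
    _ = _ := by rw [← D.q_inv m]; group

/-- The twist of the last piece, as a homomorphism. -/
noncomputable def UH (m : ℕ) : L →* D.Gam := MonoidHom.mk' (fun g => D.U g m) fun g g' => D.U_mul g g' m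

theorem U_comm_T_self : ∀ g g' m, Commute (D.U g m) (D.T g' m) := by
  intro g g'
  have base : ∀ m, m < 2 → Commute (D.U g m) (D.T g' m) := by
    intro m hm
    refine D.commute_gen (D.TH m) _ (fun b => ?_) g'
    refine (D.commute_gen (D.UH m) _ (fun a => ?_) g).symm
    show Commute (D.T _ m) (D.U _ m)
    refine Commute.symm ?_
    refine D.eq_of_ev [.q m, .t (D.ψ (FreeGroup.of a)) m, .q m, .t (D.ψ (FreeGroup.of b)) m]
      [.t (D.ψ (FreeGroup.of b)) m, .q m, .t (D.ψ (FreeGroup.of a)) m, .q m]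
      (by simp [at', U, mul_assoc]) (by simp [at', U, mul_assoc])
      (by simp [ok, D.psi_mem_Ext]; omega) (by simp [ok, D.psi_mem_Ext]; omega) ?_
    simp only [map_mul, U, ev_q, ev_T]
    exact (D.UT_comm _ _ m).eq
  intro m
  cases m with
  | zero => exact base 0 (by omega)
  | succ m =>
    have := (D.sh_U g).commute (D.sh_T g') 0 (base 1 (by omega)) m
    simpa using this

end Setup

end Vale.P193.SV
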