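import Vale.Agent.P193.SV.Family
import Mathlib.GroupTheory.NoncommPiCoprod
import Mathlib.GroupTheory.Perm.Fin

/-!
P193, Thm B: the groups of level `m + 1` inside the presented group and the splitting elements.
-/

namespace Vale.P193.SV

theorem pi_hom_ext {ι N M : Type} [Finite ι] [DecidableEq ι] [Monoid N] [Monoid M] {f f' : (ι → N) →* M}
    (h : ∀ i x, f (Pi.mulSingle i x) = f' (Pi.mulSingle i x)) : f = f' := by
  have := Fintype.ofFinite ι
  refine MonoidHom.noncommPiCoprodEquiv.symm.injective (Subtype.ext ?_)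
  funext i
  exact MonoidHom.ext fun x => h i x

theorem liftP_mul {n : ℕ} (a b : Equiv.Perm (Fin (n + 1))) (j : Fin (n + 1)) :
    liftP (a * b) j = liftP a (b j) * liftP b j := by
  refine Equiv.ext fun k => (chi (a (b j))).injective ?_
  rw [Equiv.Perm.mul_apply, chi_liftP a (b j), chi_liftP b j, Option.map_map]
  exact chi_liftP (a * b) j k

theorem par_liftP {n : ℕ} (π : Equiv.Perm (Fin (n + 1))) (j : Fin (n + 1)) (k : Fin (n + 2)) :
    par (π j) (liftP π j k) = π (par j k) := by
  simp only [par, chi_liftP]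
  cases chi j k <;> rfl

theorem tw_eq {L S : Type} [Group L] [MulAction L S] {g g' : L} (hf : ∀ g : L, (∀ s : S, g • s = s) → g = 1)
    (h : ∀ x : Cs S, tw g x = tw g' x) : g = g' := by
  classical
  rw [← mul_inv_eq_one]
  refine hf _ fun s => ?_
  by_contra hne
  have := congrFun (congrFun (h fun u _ => decide (u = g'⁻¹ • s)) s) 0
  simp only [tw_apply, decide_true, decide_eq_true_eq, smul_left_cancel_iff] at this
  apply hne
  rw [mul_smul, ← this, smul_inv_smul]

theorem MuS_inj {L S : Type} [Group L] [MulAction L S] [DecidableEq S] (s0 : S)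
    (hf : ∀ g : L, (∀ s : S, g • s = s) → g = 1) {n : ℕ} {g g' : Fin (n + 1) → L}
    {π π' : Equiv.Perm (Fin (n + 1))} (h : MuS s0 n g π = MuS s0 n g' π') : g = g' ∧ π = π' := by
  have e : ∀ j x, π j = π' j ∧ tw (g j) x = tw (g' j) x := fun j x => by
    have := Equiv.congr_fun h (hb (piece s0 n j) x)
    rw [MuS_apply, MuS_apply] at this
    exact piece_inj s0 n this
  exact ⟨funext fun j => tw_eq hf fun x => (e j x).2, Equiv.ext fun j => (e j (fun _ _ => false)).1⟩

namespace Setup

variable {L S : Type} [Group L] [MulAction L S] [DecidableEq S] (D : Setup L S)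

/-- The generators of level `m + 1`. -/
noncomputable def sg (m k : ℕ) : D.Gam := if k < m then D.p k else D.q m

theorem typeA_sg (m : ℕ) : TypeA (m + 1) (D.sg m) where
  inv i hi := by
    unfold sg; split
    · exact D.p_inv i
    · exact D.q_inv m
  comm i j h hj := by
    simp only [sg, if_pos (show i < m by omega)]
    split
    · exact (D.p_comm_p i j (by omega)).eq
    · exact (D.p_comm_q i m (by omega)).eq
  braid i hi := by
    simp only [sg, if_pos (show i < m by omega)]
    by_cases h : i + 1 < m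
    · simp only [if_pos h]; exact D.p_braid i
    · obtain rfl : m = i + 1 := by omega
      simp only [if_neg h]; exact D.q_braid i

/-- Permutations of level `m + 1`. -/
noncomputable def Pm (m : ℕ) : Equiv.Perm (Fin (m + 2)) →* D.Gam :=
  (exists_permLift (D.typeA_sg m)).choose

theorem Pm_asw {m k : ℕ} (h : k ≤ m) : D.Pm m (asw (m + 1) k) = D.sg m k :=
  (exists_permLift (D.typeA_sg m)).choose_spec k (by omega)

/-- The twist of piece `k` of level `m + 1`. -/
noncomputable def Tk (m k : ℕ) : L →* D.Gam := if k ≤ m then D.TH k else D.UH m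

theorem Tk_le {m k : ℕ} (h : k ≤ m) (g : L) : D.Tk m k g = D.T g k := by
  rw [Tk, if_pos h]; rfl

theorem Tk_top {m k : ℕ} (h : m < k) (g : L) : D.Tk m k g = D.U g m := by
  rw [Tk, if_neg (by omega)]; rfl

theorem U_comm_T {g g' : L} {m i : ℕ} (h : i ≤ m) : Commute (D.U g m) (D.T g' i) := by
  rcases Nat.lt_or_eq_of_le h with h | rfl
  · exact (((D.T_comm_q g' i m h).mul_right (D.T_comm_T (by omega))).mul_right (D.T_comm_q g' i m h)).symm
  · exact D.U_comm_T_self g g' i

theorem Tk_comm (m : ℕ) : Pairwise fun i j : Fin (m + 2) => ∀ x y, Commute (D.Tk m i.val x) (D.Tk m j.val y) := by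
  intro i j hij x y
  have hne : i.val ≠ j.val := fun e => hij (Fin.ext e)
  by_cases hi : i.val ≤ m <;> by_cases hj : j.val ≤ m
  · rw [D.Tk_le hi, D.Tk_le hj]; exact D.T_comm_T hne
  · rw [D.Tk_le hi, D.Tk_top (by omega)]; exact (D.U_comm_T hi).symm
  · rw [D.Tk_top (by omega), D.Tk_le hj]; exact D.U_comm_T hj
  · omega

/-- Twists of level `m + 1`. -/
noncomputable def Tw (m : ℕ) : (Fin (m + 2) → L) →* D.Gam :=
  MonoidHom.noncommPiCoprod (fun k : Fin (m + 2) => D.Tk m k.val) (D.Tk_comm m)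

theorem Tw_single (m : ℕ) (k : Fin (m + 2)) (g : L) : D.Tw m (Pi.mulSingle k g) = D.Tk m k.val g :=
  MonoidHom.noncommPiCoprod_mulSingle _ _ _

theorem T_succ_swap (g : L) (k : ℕ) : D.p k * D.T g (k + 1) * D.p k = D.T g k := by
  rw [← D.p_swap g k]
  calc D.p k * (D.p k * D.T g k * D.p k) * D.p k = (D.p k * D.p k) * D.T g k * (D.p k * D.p k) := by group
    _ = _ := by rw [D.p_inv k, one_mul, mul_one]

theorem p_U_comm {g : L} {k m : ℕ} (h : k < m) : Commute (D.p k) (D.U g m) := by
  rcases Nat.lt_or_eq_of_le (show k + 1 ≤ m from h) with h' | rfl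
  · exact ((D.p_comm_q k m h').mul_right (D.p_comm_T g k m h')).mul_right (D.p_comm_q k m h')
  · have hp : (D.p k)⁻¹ = D.p k := inv_eq_of_mul_eq_one_right (D.p_inv k)
    have hb := D.q_braid k
    have hT : Commute (D.T g k) (D.q (k + 1)) := D.T_comm_q g k (k + 1) (by omega)
    show D.p k * D.U g (k + 1) = D.U g (k + 1) * D.p k
    have e : D.p k * D.U g (k + 1) * D.p k = D.U g (k + 1) := by
      rw [U, ← D.p_swap g k]
      calc D.p k * (D.q (k + 1) * (D.p k * D.T g k * D.p k) * D.q (k + 1)) * D.p k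
          = (D.p k * D.q (k + 1) * D.p k) * D.T g k * (D.p k * D.q (k + 1) * D.p k) := by group
        _ = D.q (k + 1) * D.p k * (D.q (k + 1) * D.T g k) * (D.q (k + 1) * D.p k * D.q (k + 1)) := by
            rw [hb]; group
        _ = D.q (k + 1) * D.p k * D.T g k * (D.q (k + 1) * D.q (k + 1)) * D.p k * D.q (k + 1) := by
            rw [← hT.eq]; group
        _ = _ := by rw [D.q_inv]; group
    nth_rewrite 2 [← e]
    rw [mul_assoc _ (D.p k) (D.p k), D.p_inv, mul_one]

theorem sg_conj (m k : ℕ) (hk : k ≤ m) (i : Fin (m + 2)) (g : L) :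
    D.sg m k * D.Tk m i.val g * D.sg m k = D.Tk m (asw (m + 1) k i).val g := by
  rw [val_asw (by omega)]
  by_cases hkm : k < m
  · simp only [sg, if_pos hkm]
    by_cases h1 : i.val = k
    · rw [if_pos h1, h1, D.Tk_le hk, D.Tk_le (by omega : k + 1 ≤ m)]; exact D.p_swap g k
    by_cases h2 : i.val = k + 1
    · rw [if_neg h1, if_pos h2, h2, D.Tk_le (by omega : k + 1 ≤ m), D.Tk_le hk]; exact D.T_succ_swap g k
    rw [if_neg h1, if_neg h2]
    have hc : Commute (D.p k) (D.Tk m i.val g) := by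
      by_cases hi : i.val ≤ m
      · rw [D.Tk_le hi]; exact (D.T_comm_p ⟨h1, h2⟩).symm
      · rw [D.Tk_top (by omega)]; exact D.p_U_comm hkm
    rw [hc.eq, mul_assoc, D.p_inv, mul_one]
  · obtain rfl : k = m := by omega
    simp only [sg, lt_irrefl, if_false]
    by_cases h1 : i.val = k
    · rw [if_pos h1, h1, D.Tk_le le_rfl, D.Tk_top (by omega)]; rfl
    by_cases h2 : i.val = k + 1
    · rw [if_neg h1, if_pos h2, h2, D.Tk_le le_rfl, D.Tk_top (by omega), U]
      calc D.q k * (D.q k * D.T g k * D.q k) * D.q k = (D.q k * D.q k) * D.T g k * (D.q k * D.q k) := by group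
        _ = _ := by rw [D.q_inv k, one_mul, mul_one]
    rw [if_neg h1, if_neg h2, D.Tk_le (by omega), (D.T_comm_q g i.val k (by omega)).symm.eq, mul_assoc, D.q_inv,
      mul_one]

theorem Pm_Tw (m : ℕ) (π : Equiv.Perm (Fin (m + 2))) :
    ∀ g, D.Pm m π * D.Tw m g = D.Tw m (g ∘ π.symm) * D.Pm m π := by
  have hsub : π ∈ Submonoid.closure (Set.range fun i : Fin (m + 1) => Equiv.swap i.castSucc i.succ) := by
    rw [Equiv.Perm.mclosure_swap_castSucc_succ]; trivial
  induction hsub using Submonoid.closure_induction with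
  | mem x hx =>
    obtain ⟨k, rfl⟩ := hx
    simp only [← asw_castSucc]
    rw [D.Pm_asw (by omega)]
    have hs : D.sg m k.val * D.sg m k.val = 1 := (D.typeA_sg m).inv _ k.2
    have he : (MulAut.conj (D.sg m k.val)).toMonoidHom.comp (D.Tw m) =
        (D.Tw m).comp (MulEquiv.arrowCongr (asw (m + 1) k.val) (MulEquiv.refl L)).toMonoidHom := by
      refine pi_hom_ext fun i x => ?_
      have hc : (MulEquiv.arrowCongr (asw (m + 1) k.val) (MulEquiv.refl L)) (Pi.mulSingle i x) =
          Pi.mulSingle (asw (m + 1) k.val i) x := by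
        funext j
        simp [Pi.mulSingle_apply, Equiv.symm_apply_eq]
      simp only [MonoidHom.comp_apply, MulEquiv.coe_toMonoidHom, MulAut.conj_apply, hc, Tw_single]
      rw [inv_eq_of_mul_eq_one_right hs]
      exact D.sg_conj m k.val (by omega) i x
    intro g
    have := DFunLike.congr_fun he g
    exact mul_inv_eq_iff_eq_mul.1 this
  | one => intro g; simp; rfl
  | mul a b _ _ ha hb =>
    intro g
    rw [map_mul, mul_assoc, hb, ← mul_assoc, ha, mul_assoc]
    rfl

/-- The element of level `m + 1` with twists `g` and permutation `π`. -/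
noncomputable def mu (m : ℕ) (g : Fin (m + 2) → L) (π : Equiv.Perm (Fin (m + 2))) : D.Gam :=
  D.Pm m π * D.Tw m g

theorem mu_one_left (m : ℕ) (π : Equiv.Perm (Fin (m + 2))) : D.mu m 1 π = D.Pm m π := by simp [mu]

theorem mu_mul (m : ℕ) (g g' : Fin (m + 2) → L) (π π' : Equiv.Perm (Fin (m + 2))) :
    D.mu m g π * D.mu m g' π' = D.mu m (fun j => g (π' j) * g' j) (π * π') := by
  have h : D.Tw m g * D.Pm m π' = D.Pm m π' * D.Tw m (g ∘ π') := by
    rw [D.Pm_Tw]; congr 2; funext j; simp
  calc D.Pm m π * D.Tw m g * (D.Pm m π' * D.Tw m g') = D.Pm m π * (D.Tw m g * D.Pm m π') * D.Tw m g' := by group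
    _ = D.Pm m π * D.Pm m π' * (D.Tw m (g ∘ π') * D.Tw m g') := by rw [h]; group
    _ = _ := by rw [← map_mul, ← map_mul]; rfl

/-- The semantic permutations as a homomorphism. -/
def PermH (n : ℕ) : Equiv.Perm (Fin (n + 1)) →* Equiv.Perm (Cs S) :=
  MonoidHom.mk' (PermS (L := L) D.s0 n) fun a b => (PermS_mul D.s0 n a b).symm

/-- The semantic twists as a homomorphism. -/
def TwSH (n : ℕ) : (Fin (n + 1) → L) →* Equiv.Perm (Cs S) :=
  MonoidHom.mk' (TwS D.s0 n) fun a b => (TwS_mul D.s0 n a b).symm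

theorem ev_Pm (m : ℕ) (π : Equiv.Perm (Fin (m + 2))) : D.ev (D.Pm m π) = PermS (L := L) D.s0 (m + 1) π := by
  refine DFunLike.congr_fun (permHom_ext (f := D.ev.comp (D.Pm m)) (f' := D.PermH (m + 1)) fun k hk => ?_) π
  show D.ev (D.Pm m _) = PermS (L := L) D.s0 (m + 1) _
  rw [D.Pm_asw (by omega), sg]
  split
  · rw [ev_p]; exact D.PS_at (by omega)
  · obtain rfl : k = m := by omega
    rw [ev_q]; rfl

theorem ev_Tw (m : ℕ) (g : Fin (m + 2) → L) : D.ev (D.Tw m g) = TwS D.s0 (m + 1) g := by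
  refine DFunLike.congr_fun (pi_hom_ext (f := D.ev.comp (D.Tw m)) (f' := D.TwSH (m + 1)) fun k x => ?_) g
  show D.ev (D.Tw m _) = TwS D.s0 (m + 1) _
  rw [D.Tw_single, ← tw1_eq k x]
  by_cases hk : k.val ≤ m
  · rw [D.Tk_le hk, ev_T]; exact D.TS_at (by omega)
  · rw [D.Tk_top (by omega), U, map_mul, map_mul, ev_q, ev_T, U_eq, show k.val = m + 1 by omega]

theorem ev_mu (m : ℕ) (g : Fin (m + 2) → L) (π : Equiv.Perm (Fin (m + 2))) :
    D.ev (D.mu m g π) = MuS D.s0 (m + 1) g π := by
  rw [mu, map_mul, ev_Pm, ev_Tw, PermS_TwS]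

theorem mu_inj {m : ℕ} {g g' : Fin (m + 2) → L} {π π' : Equiv.Perm (Fin (m + 2))}
    (h : D.ev (D.mu m g π) = D.ev (D.mu m g' π')) : g = g' ∧ π = π' := by
  rw [ev_mu, ev_mu] at h
  exact MuS_inj D.s0 D.faithful h

end Setup

end Vale.P193.SV
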