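import Vale.Agent.P193.SV.Trees

/-!
P193, Thm B: every element is `P * mu * Q⁻¹` for paths `P`, `Q`; hence the evaluation is injective.
-/

namespace Vale.P193.SV

variable {S : Type} [DecidableEq S]

theorem mk_brick_piece1 (s0 : S) : piece s0 1 0 = bat s0 [false] ∧ piece s0 1 1 = bat s0 [true] := ⟨rfl, rfl⟩

namespace Setup

variable {L : Type} [Group L] [MulAction L S] (D : Setup L S)

theorem mu_one_one (m : ℕ) : D.mu m 1 1 = 1 := by rw [mu_one_left, map_one]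

theorem mu_inv (m : ℕ) (g : Fin (m + 2) → L) (π : Equiv.Perm (Fin (m + 2))) :
    (D.mu m g π)⁻¹ = D.mu m (fun j => (g (π.symm j))⁻¹) π⁻¹ := by
  refine inv_eq_of_mul_eq_one_right ?_
  rw [mu_mul, mul_inv_cancel, ← mu_one_one D m]
  congr 1
  funext j
  simp [Equiv.Perm.inv_def]

/-- The vine with `n + 2` pieces. -/
noncomputable def base (n : ℕ) : D.St where
  n := n
  P := 1
  β := piece D.s0 (n + 1)
  good k x := by rw [map_one, Equiv.Perm.one_apply]

/-- The states reached from the two halves along `s0`. -/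
def Path (σ : D.St) : Prop := ExtIn (fun _ => []) (D.base 0) σ

variable {D}

theorem Path.split {σ : D.St} (h : D.Path σ) (j : Fin (σ.n + 2)) (s : S) : D.Path (σ.split j s) :=
  ExtIn.step h j (σ.β j) (bapp_nil_left _).symm s (Same.refl _)

theorem Path.perm {σ : D.St} (h : D.Path σ) (π : Equiv.Perm (Fin (σ.n + 2))) : D.Path (σ.perm π) :=
  ExtIn.same_right h (Same.mk σ π)

theorem base_range : Set.range (D.base 0).β = {bat D.s0 [false], bat D.s0 [true]} := by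
  ext c
  constructor
  · rintro ⟨k, rfl⟩
    fin_cases k
    · exact Or.inl rfl
    · exact Or.inr rfl
  · rintro (rfl | rfl)
    · exact ⟨0, rfl⟩
    · exact ⟨1, rfl⟩

theorem base_halves_ne (s : S) : (bat s [true] : Brick S) ≠ bat s [false] := fun h => by
  have := congrFun h s
  simp [bat] at this

theorem forest_range {σ ρ : D.St} {T U : Tree S} (hU : Acts (D.base 0) (bat D.s0 [true]) U ρ)
    (hT : Acts ρ (bat D.s0 [false]) T σ) :
    Set.range σ.β = bapp (bat D.s0 [false]) '' T.leaves ∪ bapp (bat D.s0 [true]) '' U.leaves := by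
  rw [hT.range, hU.range, base_range]
  have h1 : bat D.s0 [false] ∉ bapp (bat D.s0 [true]) '' U.leaves := by
    rintro ⟨c, _, e⟩
    exact half_ne D.s0 (fun _ => []) c (by rw [bapp_nil_right, e])
  ext c
  simp only [Set.mem_union, Set.mem_sdiff, Set.mem_insert_iff, Set.mem_singleton_iff]
  constructor
  · rintro (⟨(⟨rfl | rfl, h2⟩ | h2), h3⟩ | h2)
    · exact absurd rfl h3
    · exact absurd rfl h2
    · exact Or.inr h2
    · exact Or.inl h2
  · rintro (h2 | h2)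
    · exact Or.inr h2
    · exact Or.inl ⟨Or.inr h2, fun e => h1 (e ▸ h2)⟩

theorem Path.forest {σ : D.St} (h : D.Path σ) :
    ∃ T U ρ, Acts (D.base 0) (bat D.s0 [true]) U ρ ∧ Acts ρ (bat D.s0 [false]) T σ := by
  unfold Path at h
  induction h with
  | refl e =>
    exact ⟨.leaf, .leaf, D.base 0, .leaf (Same.refl _) (by rw [base_range]; exact Or.inr rfl),
      .leaf e (by rw [base_range]; exact Or.inl rfl)⟩
  | @step ρ τ _ k l hk s e ih =>
    obtain ⟨T, U, π, hU, hT⟩ := ih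
    have hmem : ρ.β k ∈ Set.range ρ.β := ⟨k, rfl⟩
    rw [forest_range hU hT] at hmem
    rcases hmem with ⟨c, hc, hc'⟩ | ⟨c, hc, hc'⟩
    · obtain ⟨T', hT'⟩ := acts_graft hT hc ((acts_single hc'.symm s).congr (Same.refl _) e)
      exact ⟨T', U, π, hU, hT'⟩
    · obtain ⟨π', hT₁, hU₁⟩ := hU.swap hT (by rw [base_range]; exact Or.inl rfl) (base_halves_ne _).symm
      obtain ⟨U', hU'⟩ := acts_graft hU₁ hc ((acts_single hc'.symm s).congr (Same.refl _) e)
      obtain ⟨π'', hU₂, hT₂⟩ := hT₁.swap hU' (by rw [base_range]; exact Or.inr rfl) (base_halves_ne _)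
      exact ⟨T, U', π'', hU₂, hT₂⟩

theorem Path.same {σ τ : D.St} (h : D.Path σ) (h' : D.Path τ) (e : Set.range σ.β = Set.range τ.β) : Same σ τ := by
  obtain ⟨T, U, ρ, hU, hT⟩ := h.forest
  obtain ⟨T', U', ρ', hU', hT'⟩ := h'.forest
  rw [forest_range hU hT, forest_range hU' hT'] at e
  obtain ⟨eT, eU⟩ := half_union_inj D.s0 e
  exact (acts_of_leaves T' T eT hT).unique ((acts_of_leaves U' U eU hU).unique (Same.refl _) hU') hT'

theorem Path.common {σ τ : D.St} (h : D.Path σ) (h' : D.Path τ) :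
    ∃ ω, ExtIn (fun _ => []) σ ω ∧ ExtIn (fun _ => []) τ ω := by
  obtain ⟨T, U, ρ, hU, hT⟩ := h.forest
  obtain ⟨T', U', ρ', hU', hT'⟩ := h'.forest
  obtain ⟨V, ω₁, -, hE, hE'⟩ := exists_common U hU hU'
  have hd : ∀ l, bapp (bat D.s0 [true]) l ≠ bat D.s0 [false] := fun l q =>
    half_ne D.s0 (fun _ => []) l (by rw [bapp_nil_right, q])
  obtain ⟨σ₁, hT₁, hF⟩ := hE.carry hd hT
  obtain ⟨τ₁, hT₁', hF'⟩ := hE'.carry hd hT'
  obtain ⟨W, ω, -, hG, hG'⟩ := exists_common T hT₁ hT₁'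
  exact ⟨ω, (ExtIn.mono (c := fun _ => []) hF).trans (ExtIn.mono (c := fun _ => []) hG),
    (ExtIn.mono (c := fun _ => []) hF').trans (ExtIn.mono (c := fun _ => []) hG')⟩

theorem Same.spec {n : ℕ} {P Q : D.Gam} {β γ : Fin (n + 2) → Brick S} {h h'}
    (e : Same (St.mk (D := D) n P β h) (St.mk n Q γ h')) :
    ∃ π, Q = P * D.Pm n π ∧ γ = fun k => β (π k) := by
  generalize hτ : St.mk (D := D) n Q γ h' = τ at e
  cases e with
  | mk π =>
    injection hτ with _ hQ hγ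
    exact ⟨π, hQ, hγ⟩

/-- `z` is `P * mu * σ.P⁻¹`. -/
def Rep (z : D.Gam) (σ : D.St) : Prop :=
  ∃ ρ : D.St, D.Path ρ ∧ ∃ h : ρ.n = σ.n, ∃ g π, z = ρ.P * D.mu σ.n g π * σ.P⁻¹

theorem Rep.same {z : D.Gam} {σ τ : D.St} (h : Rep z σ) (e : Same σ τ) : Rep z τ := by
  cases e with
  | mk π' =>
    obtain ⟨ρ, hρ, hn, g, π, rfl⟩ := h
    refine ⟨ρ, hρ, hn, fun j => g (π' j), π * π', ?_⟩
    have hm : D.mu σ.n g π * D.Pm σ.n π' = D.mu σ.n (fun j => g (π' j)) (π * π') := by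
      rw [← mu_one_left, mu_mul]; simp
    show ρ.P * D.mu σ.n g π * σ.P⁻¹ =
      ρ.P * D.mu σ.n (fun j => g (π' j)) (π * π') * (σ.P * D.Pm σ.n π')⁻¹
    rw [← hm]; group

theorem Rep.split {z : D.Gam} {σ : D.St} (h : Rep z σ) (j : Fin (σ.n + 2)) (s : S) : Rep z (σ.split j s) := by
  obtain ⟨⟨n, P, β, hg⟩, hρ, hn, g, π, rfl⟩ := h
  cases hn
  refine ⟨St.split ⟨_, P, β, hg⟩ (π j) (g j • s), hρ.split _ _, rfl, fun k => g (par j k), liftP π j, ?_⟩
  show P * D.mu σ.n g π * σ.P⁻¹ =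
    P * D.Sp σ.n (π j) (g j • s) * D.mu (σ.n + 1) (fun k => g (par j k)) (liftP π j) * (σ.P * D.Sp σ.n j s)⁻¹
  rw [mul_assoc P (D.Sp _ _ _), ← mu_Sp]
  group

theorem Rep.ext {z : D.Gam} {σ ω : D.St} {c : Brick S} (h : Rep z σ) (e : ExtIn c σ ω) : Rep z ω := by
  induction e with
  | refl e => exact h.same e
  | step _ k l hk s e ih => exact (ih.split k s).same e

theorem Path.ext {σ ω : D.St} (h : D.Path σ) (e : ExtIn (fun _ => []) σ ω) : D.Path ω := ExtIn.trans h e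

variable (D)

/-- Normal forms. -/
def NF (z : D.Gam) : Prop := ∃ σ, D.Path σ ∧ Rep z σ

theorem base_path : ∀ n, D.Path (D.base n)
  | 0 => ExtIn.refl (Same.refl _)
  | n + 1 => by
    have e : (D.base n).split (Fin.last (n + 1)) D.s0 = D.base (n + 1) :=
      St.ext' (show (1 : D.Gam) * D.Sp n (Fin.last (n + 1)) D.s0 = 1 by rw [Sp_last, mul_one])
    rw [← e]
    exact (base_path n).split _ _

theorem nf_mu (m : ℕ) (g : Fin (m + 2) → L) (π : Equiv.Perm (Fin (m + 2))) : D.NF (D.mu m g π) :=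
  ⟨D.base m, D.base_path m, D.base m, D.base_path m, rfl, g, π,
    show D.mu m g π = 1 * D.mu m g π * (1 : D.Gam)⁻¹ by group⟩

theorem nf_Sp (m : ℕ) (j : Fin (m + 2)) (s : S) : D.NF (D.Sp m j s) :=
  ⟨D.base (m + 1), D.base_path _, (D.base m).split j s, (D.base_path m).split j s, rfl, 1, 1,
    show D.Sp m j s = 1 * D.Sp m j s * D.mu (m + 1) 1 1 * (1 : D.Gam)⁻¹ by rw [mu_one_one]; group⟩

theorem nf_inv {z : D.Gam} (h : D.NF z) : D.NF z⁻¹ := by
  obtain ⟨σ, hσ, ⟨n, P, β, hg⟩, hρ, hn, g, π, rfl⟩ := h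
  cases hn
  refine ⟨⟨_, P, β, hg⟩, hρ, σ, hσ, rfl, fun j => (g (π.symm j))⁻¹, π⁻¹, ?_⟩
  show (P * D.mu σ.n g π * σ.P⁻¹)⁻¹ = σ.P * D.mu σ.n _ π⁻¹ * P⁻¹
  rw [← mu_inv]; group

theorem nf_mul {z w : D.Gam} (hz : D.NF z) (hw : D.NF w) : D.NF (z * w) := by
  obtain ⟨σ, hσ, hzσ⟩ := hz
  obtain ⟨τ, hτ, hwτ⟩ := D.nf_inv hw
  obtain ⟨ω, hσω, hτω⟩ := hσ.common hτ
  obtain ⟨ρ, hρ, hn, g, π, rfl⟩ := hzσ.ext hσω
  obtain ⟨⟨n', P', β', hg'⟩, hρ', hn', g', π', e⟩ := hwτ.ext hτω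
  cases hn'
  refine ⟨⟨_, P', β', hg'⟩, hρ', ρ, hρ, hn, fun j => g (π'.symm j) * (g' (π'.symm j))⁻¹, π * π'⁻¹, ?_⟩
  have e' : w = (P' * D.mu ω.n g' π' * ω.P⁻¹)⁻¹ := by
    rw [← e, inv_inv]
  rw [e']
  show ρ.P * D.mu ω.n g π * ω.P⁻¹ * (P' * D.mu ω.n g' π' * ω.P⁻¹)⁻¹ = ρ.P * D.mu ω.n _ (π * π'⁻¹) * P'⁻¹
  have hm : D.mu ω.n g π * (D.mu ω.n g' π')⁻¹ =
      D.mu ω.n (fun j => g (π'.symm j) * (g' (π'.symm j))⁻¹) (π * π'⁻¹) := by
    rw [mu_inv, mu_mul]; rfl
  rw [← hm]; group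

theorem nf_all (z : D.Gam) : D.NF z := by
  have hone : D.NF 1 := by
    have := D.nf_mu 0 1 1
    rwa [mu_one_one] at this
  let H : Subgroup D.Gam :=
    { carrier := {z | D.NF z}
      mul_mem' := fun a b => D.nf_mul a b
      one_mem' := hone
      inv_mem' := fun a => D.nf_inv a }
  refine PresentedGroup.generated_by D.rels H ?_ z
  have hsg : ∀ m k, k ≤ m → D.NF (D.sg m k) := fun m k h => by
    have := D.nf_mu m 1 (asw (m + 1) k)
    rwa [mu_one_left, D.Pm_asw h] at this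
  rintro (a | k)
  · show D.NF (PresentedGroup.of (Sum.inl a))
    have e : (PresentedGroup.of (Sum.inl a) : D.Gam) = D.T (D.ψ (FreeGroup.of a)) 0 := by
      rw [T0_map, FreeGroup.map.of]; rfl
    have := D.nf_mu 0 (Pi.mulSingle 0 (D.ψ (FreeGroup.of a))) 1
    rw [mu, map_one, one_mul, Tw_single, D.Tk_le (by simp)] at this
    rw [e]; exact this
  · fin_cases k
    · show D.NF D.X
      have := D.nf_Sp 0 0 D.s0
      rwa [Sp_zero, XX_s0] at this
    · show D.NF (D.p 0)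
      simpa [sg] using hsg 1 0 (by omega)
    · show D.NF (D.p 1)
      simpa [sg] using hsg 2 1 (by omega)
    · show D.NF (D.q 0)
      simpa [sg] using hsg 0 0 (by omega)
    · show D.NF (D.q 1)
      simpa [sg] using hsg 1 1 (by omega)

/-- The presented group is a group of permutations. -/
theorem ev_injective : Function.Injective D.ev := by
  rw [injective_iff_map_eq_one]
  intro z hz
  obtain ⟨σ, hσ, ⟨n, P, β, hg⟩, hρ, hn, g, π, rfl⟩ := D.nf_all z
  cases hn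
  have key : ∀ k x, hb (β (π k)) (tw (g k) x) = hb (σ.β k) x := fun k x => by
    rw [map_mul, map_inv, mul_inv_eq_one] at hz
    have := Equiv.congr_fun hz (hb (piece D.s0 (σ.n + 1) k) x)
    rwa [σ.good, map_mul, Equiv.Perm.mul_apply, ev_mu, MuS_apply, hg] at this
  have hβ : ∀ k, β (π k) = σ.β k := fun k => brick_ext_tw (key k)
  have hg1 : g = 1 := funext fun k => tw_eq D.faithful fun x => by
    rw [Pi.one_apply, tw_one]
    have := key k x
    rw [hβ] at this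
    exact hb_injective _ this
  have hr : Set.range β = Set.range σ.β := by
    ext c
    constructor
    · rintro ⟨k, rfl⟩
      exact ⟨π.symm k, by rw [← hβ, Equiv.apply_symm_apply]⟩
    · rintro ⟨k, rfl⟩
      exact ⟨π k, hβ k⟩
  subst hg1
  cases σ with
  | mk n Q γ hQ =>
    obtain ⟨π', hQ', hγ⟩ := (hρ.same hσ hr).spec
    have : π = π' := Equiv.ext fun k => St.β_inj ⟨_, P, β, hg⟩ ((hβ k).trans (congrFun hγ k))
    subst this
    show P * D.mu n 1 π * Q⁻¹ = 1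
    rw [hQ', mu_one_left]; group

end Setup

end Vale.P193.SV
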