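import Vale.Agent.P193.SV.Sem
import Mathlib.GroupTheory.PresentedGroup
import Mathlib.GroupTheory.FinitelyPresentedGroup
import Mathlib.Data.Set.Finite.List

/-!
P193, Thm B: the finitely presented group.  Its relators are the relators of `L` and all true relations between
short products of a fixed finite set of named elements; soundness is therefore immediate.
-/

namespace Vale.P193.SV

/-- The data: a presentation of `L`, a base point with generators of its stabiliser, and the transitivity. -/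
structure Setup (L S : Type) [Group L] [MulAction L S] where
  n : ℕ
  ψ : FreeGroup (Fin n) →* L
  ψ_surj : Function.Surjective ψ
  relsL : Set (FreeGroup (Fin n))
  relsL_finite : relsL.Finite
  ψ_ker : Subgroup.normalClosure relsL = ψ.ker
  s0 : S
  stab : Finset L
  stab_closure : Subgroup.closure (stab : Set L) = MulAction.stabilizer L s0
  g1 : L
  g1_ne : g1 • s0 ≠ s0
  g2 : L
  g2_ne : g2 • s0 ≠ s0
  g12_ne : g1 • s0 ≠ g2 • s0
  faithful : ∀ g : L, (∀ s : S, g • s = s) → g = 1
  trans2 : ∀ a b a' b' : S, a ≠ b → a' ≠ b' → ∃ g : L, g • a = a' ∧ g • b = b'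

/-- Generators: those of `L`, then `X`, `p 0`, `p 1`, `q 0`, `q 1`. -/
abbrev Gn (n : ℕ) : Type := Fin n ⊕ Fin 5

/-- Named elements. -/
inductive At (L : Type) : Type where
  | x : At L
  | xi : At L
  | p (i : ℕ) : At L
  | q (i : ℕ) : At L
  | t (g : L) (i : ℕ) : At L

variable {L S : Type} [Group L] [MulAction L S] [DecidableEq S] (D : Setup L S)

namespace Setup

def xF : FreeGroup (Gn D.n) := FreeGroup.of (Sum.inr 0)

/-- Shift by conjugation. -/
def shF (y : FreeGroup (Gn D.n)) : ℕ → FreeGroup (Gn D.n)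
  | 0 => y
  | k + 1 => D.xF⁻¹ * shF y k * D.xF

def pF : ℕ → FreeGroup (Gn D.n)
  | 0 => FreeGroup.of (Sum.inr 1)
  | k + 1 => D.shF (FreeGroup.of (Sum.inr 2)) k

def qF : ℕ → FreeGroup (Gn D.n)
  | 0 => FreeGroup.of (Sum.inr 3)
  | k + 1 => D.shF (FreeGroup.of (Sum.inr 4)) k

noncomputable def t0F (g : L) : FreeGroup (Gn D.n) := FreeGroup.map Sum.inl (Function.surjInv D.ψ_surj g)

noncomputable def tF (g : L) : ℕ → FreeGroup (Gn D.n)
  | 0 => D.t0F g
  | k + 1 => D.shF (FreeGroup.of (Sum.inr 1) * D.t0F g * FreeGroup.of (Sum.inr 1)) k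

noncomputable def atF : At L → FreeGroup (Gn D.n)
  | .x => D.xF
  | .xi => D.xF⁻¹
  | .p i => D.pF i
  | .q i => D.qF i
  | .t g i => D.tF g i

/-- Semantic values of the generators. -/
def genS : Gn D.n → Equiv.Perm (Cs S)
  | Sum.inl a => TwS D.s0 1 (tw1 1 0 (D.ψ (FreeGroup.of a)))
  | Sum.inr k =>
    if k = 0 then XS D.s0 D.s0
    else if k = 1 then PermS (L := L) D.s0 2 (asw 2 0)
    else if k = 2 then PermS (L := L) D.s0 3 (asw 3 1)
    else if k = 3 then PermS (L := L) D.s0 1 (asw 1 0)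
    else PermS (L := L) D.s0 2 (asw 2 1)

def evF : FreeGroup (Gn D.n) →* Equiv.Perm (Cs S) := FreeGroup.lift D.genS

def PS (i : ℕ) : Equiv.Perm (Cs S) := PermS (L := L) D.s0 (i + 2) (asw (i + 2) i)
def QS (i : ℕ) : Equiv.Perm (Cs S) := PermS (L := L) D.s0 (i + 1) (asw (i + 1) i)
def TS (g : L) (i : ℕ) : Equiv.Perm (Cs S) := TwS D.s0 (i + 1) (tw1 (i + 1) i g)

def atS : At L → Equiv.Perm (Cs S)
  | .x => XS D.s0 D.s0
  | .xi => (XS D.s0 D.s0)⁻¹
  | .p i => D.PS i
  | .q i => D.QS i
  | .t g i => D.TS g i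

theorem evF_shF (Y : ℕ → Equiv.Perm (Cs S)) (hY : ∀ i, Y (i + 1) * XS D.s0 D.s0 = XS D.s0 D.s0 * Y (i + 2))
    (y : FreeGroup (Gn D.n)) (hy : D.evF y = Y 1) : ∀ k, D.evF (D.shF y k) = Y (k + 1)
  | 0 => hy
  | k + 1 => by
    rw [shF, map_mul, map_mul, map_inv, evF_shF Y hY y hy k]
    simp only [evF, xF, FreeGroup.lift_apply_of, genS, ↓reduceIte]
    rw [mul_assoc, hY k, ← mul_assoc, inv_mul_cancel, one_mul]

theorem PS_shift (i : ℕ) (s : S) : D.PS (i + 1) * XS D.s0 s = XS D.s0 s * D.PS (i + 2) := by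
  have h := asw_split (L := L) D.s0 (n := i + 3) (i := i + 1) (by omega) 0 (Or.inl (by simp)) s
  rw [SpS_zero, if_pos (by simp)] at h
  exact h

theorem QS_shift (i : ℕ) (s : S) : D.QS (i + 1) * XS D.s0 s = XS D.s0 s * D.QS (i + 2) := by
  have h := asw_split (L := L) D.s0 (n := i + 2) (i := i + 1) (by omega) 0 (Or.inl (by simp)) s
  rw [SpS_zero, if_pos (by simp)] at h
  exact h

theorem TS_shift (g : L) (i : ℕ) (s : S) : D.TS g (i + 1) * XS D.s0 s = XS D.s0 s * D.TS g (i + 2) := by
  have h := tw1_split D.s0 (n := i + 2) (i := i + 1) (by omega) 0 (by simp) g s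
  rw [SpS_zero, if_neg (by simp)] at h
  exact h

theorem evF_p : ∀ i, D.evF (D.pF i) = D.PS i
  | 0 => by simp [evF, pF, genS, PS]
  | k + 1 => D.evF_shF D.PS (fun i => D.PS_shift i D.s0) _ (by simp [evF, genS, PS]) k

theorem evF_q : ∀ i, D.evF (D.qF i) = D.QS i
  | 0 => by simp [evF, qF, genS, QS]
  | k + 1 => D.evF_shF D.QS (fun i => D.QS_shift i D.s0) _ (by simp [evF, genS, QS]) k

theorem TS_mul (g g' : L) (i : ℕ) : D.TS (g * g') i = D.TS g i * D.TS g' i := by
  rw [TS, TS, TS, TwS_mul]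
  congr 1
  funext k
  simp only [tw1, Pi.mul_apply]
  split <;> simp

/-- The first twist as a homomorphism. -/
def TS0 : L →* Equiv.Perm (Cs S) := MonoidHom.mk' (fun g => D.TS g 0) fun g g' => D.TS_mul g g' 0

theorem evF_map (w : FreeGroup (Fin D.n)) : D.evF (FreeGroup.map Sum.inl w) = D.TS (D.ψ w) 0 := by
  have h : D.evF.comp (FreeGroup.map Sum.inl) = D.TS0.comp D.ψ := by
    ext a
    simp [evF, genS, TS0, TS]
  exact DFunLike.congr_fun h w

theorem evF_t0 (g : L) : D.evF (D.t0F g) = D.TS g 0 := by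
  rw [t0F, evF_map, Function.surjInv_eq D.ψ_surj]

theorem TS_swap (g : L) : D.PS 0 * D.TS g 0 * D.PS 0 = D.TS g 1 := by
  rw [PS, TS, TS, ← tw1_stable D.s0 (n := 0 + 2) (i := 0) (by omega) g, PermS_TwS_conj, mul_assoc, PermS_mul,
    asw_self (by omega)]
  rw [show PermS (L := L) D.s0 (0 + 2) 1 = 1 from MuS_one D.s0 _, mul_one]
  congr 1
  funext k
  simp only [Function.comp_apply, tw1]
  rw [← Equiv.Perm.inv_def, inv_eq_of_mul_eq_one_left (asw_self (n := 0 + 2) (i := 0) (by omega)),
    val_asw (by omega)]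
  split_ifs <;> first | rfl | omega | contradiction

theorem evF_t (g : L) : ∀ i, D.evF (D.tF g i) = D.TS g i
  | 0 => D.evF_t0 g
  | k + 1 => by
    refine D.evF_shF (D.TS g) (fun i => D.TS_shift g i D.s0) _ ?_ k
    rw [map_mul, map_mul, evF_t0, show D.evF (FreeGroup.of (Sum.inr 1)) = D.PS 0 from D.evF_p 0, TS_swap]

theorem evF_atF : ∀ a, D.evF (D.atF a) = D.atS a
  | .x => by simp [evF, atF, atS, xF, genS]
  | .xi => by simp [evF, atF, atS, xF, genS]
  | .p i => D.evF_p i
  | .q i => D.evF_q i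
  | .t g i => D.evF_t g i

/-- The elements of `L` that may occur in relations. -/
def Ext : Set L := Set.range (fun a => D.ψ (FreeGroup.of a)) ∪ ↑D.stab ∪ {D.g1, D.g1⁻¹}

/-- Admissible named elements. -/
def ok : At L → Prop
  | .x => True
  | .xi => True
  | .p i => i < 7
  | .q i => i < 7
  | .t g i => g ∈ D.Ext ∧ i < 7

theorem ok_finite : {a : At L | D.ok a}.Finite := by
  refine Set.Finite.subset (((((Set.finite_singleton At.xi).insert At.x).union ((Set.finite_Iio 7).image At.p)).union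
    ((Set.finite_Iio 7).image At.q)).union ((((Set.finite_range fun a => D.ψ (FreeGroup.of a)).union D.stab.finite_toSet).union
      ((Set.finite_singleton D.g1⁻¹).insert D.g1)).image2 At.t (Set.finite_Iio 7))) ?_
  intro a ha
  cases a with
  | x => simp
  | xi => simp
  | p i => exact Or.inl (Or.inl (Or.inr ⟨i, ha, rfl⟩))
  | q i => exact Or.inl (Or.inr ⟨i, ha, rfl⟩)
  | t g i => exact Or.inr ⟨g, ha.1, i, ha.2, rfl⟩

noncomputable def prodF (l : List (At L)) : FreeGroup (Gn D.n) := (l.map D.atF).prod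

/-- Admissible products. -/
def short : Set (List (At L)) := {l | l.length ≤ 20 ∧ ∀ a ∈ l, D.ok a}

theorem short_finite : D.short.Finite := by
  have : Finite {a : At L // D.ok a} := D.ok_finite.to_subtype
  refine Set.Finite.subset
    ((List.finite_length_le {a : At L // D.ok a} 20).image (List.map Subtype.val)) ?_
  intro l hl
  exact ⟨l.attach.map fun a => ⟨a.1, hl.2 a.1 a.2⟩,
    by simpa only [Set.mem_ofPred_eq, List.length_map, List.length_attach] using hl.1,
    by rw [List.map_map]; exact List.attach_map_subtype_val l⟩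

/-- The relators. -/
noncomputable def rels : Set (FreeGroup (Gn D.n)) :=
  FreeGroup.map Sum.inl '' D.relsL ∪
    ((fun p : List (At L) × List (At L) => D.prodF p.1 * (D.prodF p.2)⁻¹) '' (D.short ×ˢ D.short) ∩
      {r | D.evF r = 1})

theorem rels_finite : D.rels.Finite :=
  (D.relsL_finite.image _).union (((D.short_finite.prod D.short_finite).image _).inter_of_left _)

/-- The group. -/
abbrev Gam : Type := PresentedGroup D.rels

instance fp : Group.IsFinitelyPresented D.Gam :=
  haveI : Finite D.rels := D.rels_finite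
  inferInstance

theorem rels_true : ∀ r ∈ D.rels, FreeGroup.lift D.genS r = 1 := by
  rintro r (⟨w, hw, rfl⟩ | ⟨-, hr⟩)
  · have h1 : D.ψ w = 1 := by
      rw [← MonoidHom.mem_ker, ← D.ψ_ker]
      exact Subgroup.subset_normalClosure hw
    show D.evF _ = 1
    rw [evF_map, h1]
    exact map_one D.TS0
  · exact hr

/-- The evaluation in the permutation group. -/
noncomputable def ev : D.Gam →* Equiv.Perm (Cs S) := PresentedGroup.toGroup D.rels_true

theorem ev_mk (w : FreeGroup (Gn D.n)) : D.ev (PresentedGroup.mk _ w) = D.evF w := rfl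

noncomputable def X : D.Gam := PresentedGroup.mk _ D.xF
noncomputable def p (i : ℕ) : D.Gam := PresentedGroup.mk _ (D.pF i)
noncomputable def q (i : ℕ) : D.Gam := PresentedGroup.mk _ (D.qF i)
noncomputable def T (g : L) (i : ℕ) : D.Gam := PresentedGroup.mk _ (D.tF g i)

noncomputable def at' : At L → D.Gam
  | .x => D.X
  | .xi => D.X⁻¹
  | .p i => D.p i
  | .q i => D.q i
  | .t g i => D.T g i

@[simp] theorem ev_X : D.ev D.X = XS D.s0 D.s0 := D.evF_atF .x
@[simp] theorem ev_p (i : ℕ) : D.ev (D.p i) = D.PS i := D.evF_p i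
@[simp] theorem ev_q (i : ℕ) : D.ev (D.q i) = D.QS i := D.evF_q i
@[simp] theorem ev_T (g : L) (i : ℕ) : D.ev (D.T g i) = D.TS g i := D.evF_t g i

/-- A true relation between admissible products holds in the group. -/
theorem rel (l₁ l₂ : List (At L)) (h₁ : l₁ ∈ D.short) (h₂ : l₂ ∈ D.short)
    (h : D.ev (l₁.map D.at').prod = D.ev (l₂.map D.at').prod) : (l₁.map D.at').prod = (l₂.map D.at').prod := by
  have e : ∀ l : List (At L), (l.map D.at').prod = PresentedGroup.mk D.rels (D.prodF l) := fun l => by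
    rw [prodF, map_list_prod, List.map_map]
    congr 1
    exact List.map_congr_left fun a _ => by cases a <;> first | rfl | exact (map_inv _ _).symm
  rw [e, e, ev_mk, ev_mk] at h
  rw [e, e, ← mul_inv_eq_one, ← map_inv, ← map_mul]
  refine PresentedGroup.one_of_mem ?_
  exact Or.inr ⟨⟨(l₁, l₂), ⟨h₁, h₂⟩, rfl⟩, show D.evF _ = 1 by rw [map_mul, map_inv, h, mul_inv_cancel]⟩

end Setup

end Vale.P193.SV
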