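import Vale.Agent.P193.SV.Split

/-!
P193, Thm B: rules (b), (c), (d) for the splitting elements, at every level.
-/

namespace Vale.P193.SV

variable {S : Type} [DecidableEq S]

theorem bat_comm {s t : S} (h : s ≠ t) (a b : List Bool) : bapp (bat s a) (bat t b) = bapp (bat t b) (bat s a) := by
  funext u
  simp only [bapp, bat, Function.update_apply]
  split_ifs with h1 h2 <;> simp_all

theorem bat_comm' {s t : S} (h : s ≠ t) (a b : List Bool) (c : Brick S) :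
    bapp (bat s a) (bapp (bat t b) c) = bapp (bat t b) (bapp (bat s a) c) := by
  rw [← bapp_assoc, ← bapp_assoc, bat_comm h]

/-- Semantic crossing. -/
theorem SpS_cross {L : Type} [Group L] [MulAction L S] (s0 : S) {n : ℕ} (j : Fin (n + 1)) {s t : S} (h : s ≠ t) :
    SpS s0 n j s * SpS s0 (n + 1) j.succ t * SpS s0 (n + 2) j.castSucc.castSucc t =
      SpS s0 n j t * SpS s0 (n + 1) j.succ s * SpS s0 (n + 2) j.castSucc.castSucc s *
        PermS (L := L) s0 (n + 3) (asw (n + 3) (j.val + 1)) := by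
  refine perm_ext s0 (n + 3) fun k x => ?_
  simp only [Equiv.Perm.mul_apply, PermS_apply, SpS_apply, part_eq]
  simp only [← hb_bapp]
  have hk := val_asw (n := n + 3) (i := j.val + 1) (by omega) k
  have hp : par j (par j.succ (par j.castSucc.castSucc k)) =
      par j (par j.succ (par j.castSucc.castSucc (asw (n + 3) (j.val + 1) k))) := by
    refine Fin.ext ?_
    simp only [val_par, hk, Fin.val_succ, Fin.val_castSucc]
    rcases (show k.val < j.val ∨ k.val = j.val ∨ k.val = j.val + 1 ∨ k.val = j.val + 2 ∨ k.val = j.val + 3 ∨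
      j.val + 3 < k.val by omega) with e | e | e | e | e | e <;>
      simp (disch := omega) only [if_pos, if_neg] <;> omega
  rw [hp]
  congr 1
  congr 1
  simp only [val_par, hk, Fin.val_succ, Fin.val_castSucc]
  rcases (show k.val < j.val ∨ k.val = j.val ∨ k.val = j.val + 1 ∨ k.val = j.val + 2 ∨ k.val = j.val + 3 ∨
    j.val + 3 < k.val by omega) with e | e | e | e | e | e <;>
    simp (disch := omega) only [if_pos, if_neg] <;>
    simp [bat_comm h]

theorem val_chi_lift {n : ℕ} (π : Equiv.Perm (Fin (n + 1))) (j : Fin (n + 1)) (k : Fin (n + 2)) (x : Fin (n + 2))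
    (h : (chi j k).map π = chi (π j) x) : liftP π j k = x := by
  refine (chi (π j)).injective ?_
  rw [chi_liftP, h]

namespace Setup

variable {L : Type} [Group L] [MulAction L S] (D : Setup L S)

theorem eq_of_mu {m : ℕ} {A B : D.Gam} {g g' : Fin (m + 2) → L} {π π' : Equiv.Perm (Fin (m + 2))}
    (h : A * D.mu m g π = B * D.mu m g' π') (he : D.ev A = D.ev B) : A = B := by
  have h2 := congrArg D.ev h
  rw [map_mul, map_mul, he] at h2
  obtain ⟨rfl, rfl⟩ := D.mu_inj (mul_left_cancel h2)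
  exact mul_right_cancel h

theorem mu_Sp2 (m : ℕ) (g : Fin (m + 2) → L) (π : Equiv.Perm (Fin (m + 2))) (i : Fin (m + 2)) (i' : Fin (m + 3))
    (s t : S) : ∃ g' π', D.mu m g π * (D.Sp m i s * D.Sp (m + 1) i' t) =
      D.Sp m (π i) (g i • s) * D.Sp (m + 1) (liftP π i i') (g (par i i') • t) * D.mu (m + 2) g' π' :=
  ⟨_, _, by rw [← mul_assoc, mu_Sp, mul_assoc, mu_Sp, ← mul_assoc]⟩

theorem Pm_Sp (m : ℕ) (π : Equiv.Perm (Fin (m + 2))) (j : Fin (m + 2)) (s : S) :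
    D.Pm m π * D.Sp m j s = D.Sp m (π j) s * D.Pm (m + 1) (liftP π j) := by
  have h := D.mu_Sp m 1 π j s
  rwa [mu_one_left, Pi.one_apply, one_smul, show (fun k => (1 : Fin (m + 2) → L) (par j k)) = 1 from rfl,
    mu_one_left] at h

theorem Sp_succ (m k : ℕ) (hk : k + 1 < m + 2) (t : S) :
    D.Sp m ⟨k + 1, hk⟩ t = D.sg m k * D.Sp m ⟨k, by omega⟩ t * D.sg (m + 1) (k + 1) * D.sg (m + 1) k := by
  have h := D.Pm_Sp m (asw (m + 1) k) ⟨k, by omega⟩ t
  have e : asw (m + 1) k ⟨k, by omega⟩ = ⟨k + 1, hk⟩ := Fin.ext (by rw [val_asw (by omega)]; simp)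
  rw [e, liftP_asw_self (show k < m + 1 by omega) _ rfl, map_mul, D.Pm_asw (show k ≤ m by omega),
    D.Pm_asw (show k ≤ m + 1 by omega), D.Pm_asw (show k + 1 ≤ m + 1 by omega)] at h
  rw [h]
  have h1 := (D.typeA_sg (m + 1)).inv k (by omega)
  have h2 := (D.typeA_sg (m + 1)).inv (k + 1) (by omega)
  calc D.Sp m ⟨k + 1, hk⟩ t = D.Sp m ⟨k + 1, hk⟩ t * (D.sg (m + 1) k * 1 * D.sg (m + 1) k) := by
        rw [mul_one, h1, mul_one]
    _ = _ := by rw [← h2]; group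

theorem Sp_one (m : ℕ) (t : S) :
    D.Sp (m + 1) 1 t = D.p 0 * D.XX t * D.p 1 * D.p 0 := by
  have h := D.Sp_succ (m + 1) 0 (by omega) t
  rw [show (⟨0, by omega⟩ : Fin (m + 1 + 2)) = 0 from rfl, Sp_zero] at h
  have a : D.sg (m + 1) 0 = D.p 0 := by simp [sg]
  have b : D.sg (m + 1 + 1) 1 = D.p 1 := by simp [sg]
  have c : D.sg (m + 1 + 1) 0 = D.p 0 := by simp [sg]
  rw [a, b, c] at h
  exact h

theorem comm_base0 (m : ℕ) :
    D.Sp m 0 D.s0 * D.Sp (m + 1) ⟨2, by omega⟩ D.s0 = D.Sp m 1 D.s0 * D.Sp (m + 1) 0 D.s0 := by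
  have e2 := D.Sp_succ (m + 1) 1 (by omega) D.s0
  rw [show (⟨1, by omega⟩ : Fin (m + 1 + 2)) = 1 from rfl, Sp_one, XX_s0] at e2
  have hev : D.ev (D.Sp m 0 D.s0 * D.Sp (m + 1) ⟨2, by omega⟩ D.s0) =
      D.ev (D.Sp m 1 D.s0 * D.Sp (m + 1) 0 D.s0) := by
    simp only [map_mul, ev_Sp]
    exact SpS_comm D.s0 (n := m + 1) 0 1 (by simp) D.s0 D.s0
  rw [Sp_zero, Sp_zero, e2, XX_s0] at hev ⊢
  cases m with
  | zero =>
    have e1 := D.Sp_succ 0 0 (by omega) D.s0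
    rw [show (⟨0, by omega⟩ : Fin (0 + 2)) = 0 from rfl, Sp_zero, XX_s0] at e1
    rw [show (1 : Fin (0 + 2)) = ⟨0 + 1, by omega⟩ from rfl, e1] at hev ⊢
    simp only [sg, lt_irrefl, if_false, if_true, Nat.zero_add, zero_lt_one, Nat.lt_irrefl,
      show (1 : ℕ) < 2 by omega] at hev ⊢
    refine D.eq_of_ev [.x, .q 1, .p 0, .x, .p 1, .p 0, .q 2, .p 1] [.q 0, .x, .q 1, .p 0, .x] ?_ ?_ ?_ ?_ hev
    · simp [at', mul_assoc]
    · simp [at', mul_assoc]
    · simp [ok]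
    · simp [ok]
  | succ m =>
    rw [Sp_one, XX_s0] at hev ⊢
    simp only [sg, show 1 < m + 1 + 1 by omega, show 1 + 1 < m + 1 + 1 + 1 by omega,
      show 1 < m + 1 + 1 + 1 by omega, if_true] at hev ⊢
    refine D.eq_of_ev [.x, .p 1, .p 0, .x, .p 1, .p 0, .p 2, .p 1] [.p 0, .x, .p 1, .p 0, .x] ?_ ?_ ?_ ?_ hev
    · simp [at', mul_assoc]
    · simp [at', mul_assoc]
    · simp [ok]
    · simp [ok]

theorem exists_perm01 {m : ℕ} (i j : Fin (m + 2)) (h : i ≠ j) :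
    ∃ π : Equiv.Perm (Fin (m + 2)), π 0 = i ∧ π 1 = j := by
  refine ⟨Equiv.swap 0 i * Equiv.swap 1 (Equiv.swap 0 i j), ?_, Equiv.Perm.mul_apply _ _ _ ▸ by simp⟩
  rw [Equiv.Perm.mul_apply, Equiv.swap_apply_of_ne_of_ne (show (0 : Fin (m + 2)) ≠ 1 by simp) ?_,
    Equiv.swap_apply_left]
  intro e
  have := congrArg (Equiv.swap 0 i) e
  rw [Equiv.swap_apply_self, Equiv.swap_apply_left] at this
  exact h this

/-- Rule (b). -/
theorem Sp_comm {m : ℕ} (i j : Fin (m + 2)) (h : i.val < j.val) (s t : S) :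
    D.Sp m i s * D.Sp (m + 1) j.succ t = D.Sp m j t * D.Sp (m + 1) i.castSucc s := by
  obtain ⟨π, h0, h1⟩ := exists_perm01 i j (fun e => by rw [e] at h; omega)
  let a := D.gs s
  let b := D.gs t
  let g : Fin (m + 2) → L := fun k => if k = 0 then a else b
  have ev0 : D.ev (D.Sp m i s * D.Sp (m + 1) j.succ t) = D.ev (D.Sp m j t * D.Sp (m + 1) i.castSucc s) := by
    simp only [map_mul, ev_Sp]
    exact SpS_comm D.s0 (n := m + 1) i j h s t
  obtain ⟨g1, π1, e1⟩ := D.mu_Sp2 m g π 0 ⟨2, by omega⟩ D.s0 D.s0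
  obtain ⟨g2, π2, e2⟩ := D.mu_Sp2 m g π 1 0 D.s0 D.s0
  rw [D.comm_base0] at e1
  have hpa : par (0 : Fin (m + 2)) ⟨2, by omega⟩ = 1 := Fin.ext (by simp [val_par])
  have hpb : par (1 : Fin (m + 2)) 0 = 0 := Fin.ext (by simp [val_par])
  have l1 : liftP π 0 ⟨2, by omega⟩ = j.succ := by
    refine val_chi_lift π 0 _ _ ?_
    have c : (⟨2, by omega⟩ : Fin (m + 3)) = (chi 0).symm (some 1) :=
      Fin.ext (by rw [val_chi_symm_some]; simp)
    have d : j.succ = (chi i).symm (some j) := Fin.ext (by rw [val_chi_symm_some, if_neg (by omega)]; simp)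
    rw [c, h0, d, Equiv.apply_symm_apply, Equiv.apply_symm_apply, Option.map_some, h1]
  have l2 : liftP π 1 0 = i.castSucc := by
    refine val_chi_lift π 1 _ _ ?_
    have c : (0 : Fin (m + 3)) = (chi 1).symm (some 0) := Fin.ext (by rw [val_chi_symm_some]; simp)
    have d : i.castSucc = (chi j).symm (some i) := Fin.ext (by rw [val_chi_symm_some, if_pos h.le]; simp)
    rw [c, h1, d, Equiv.apply_symm_apply, Equiv.apply_symm_apply, Option.map_some, h0]
  rw [h0, hpa, l1] at e1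
  rw [h1, hpb, l2] at e2
  simp only [g, if_pos, if_neg (show (1 : Fin (m + 2)) ≠ 0 by simp), a, b, D.gs_smul] at e1 e2
  exact D.eq_of_mu (e1.symm.trans e2) ev0

theorem T_inv (g : L) (i : ℕ) : (D.T g i)⁻¹ = D.T g⁻¹ i := (map_inv (D.TH i) g).symm

theorem Sp_mu3 (m : ℕ) (g : Fin (m + 2) → L) (π : Equiv.Perm (Fin (m + 2))) (i : Fin (m + 2)) (i' : Fin (m + 3))
    (i'' : Fin (m + 4)) (s t u : S) : ∃ g' π',
      D.mu m g π * (D.Sp m i s * D.Sp (m + 1) i' t * D.Sp (m + 2) i'' u) =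
        D.Sp m (π i) (g i • s) * D.Sp (m + 1) (liftP π i i') (g (par i i') • t) *
          D.Sp (m + 2) (liftP (liftP π i) i' i'') (g (par i (par i' i'')) • u) * D.mu (m + 3) g' π' := by
  exact ⟨_, _, by
    rw [← mul_assoc, ← mul_assoc, mu_Sp, mul_assoc (D.Sp m _ _), mu_Sp, ← mul_assoc,
      mul_assoc _ _ (D.Sp (m + 2) i'' u), mu_Sp, ← mul_assoc]⟩

/-- Rule (c). -/
theorem Sp_cross (m : ℕ) (j : Fin (m + 2)) {s t : S} (h : s ≠ t) :
    D.Sp m j s * D.Sp (m + 1) j.succ t * D.Sp (m + 2) j.castSucc.castSucc t =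
      D.Sp m j t * D.Sp (m + 1) j.succ s * D.Sp (m + 2) j.castSucc.castSucc s *
        D.Pm (m + 3) (asw (m + 4) (j.val + 1)) := by
  obtain ⟨a, ha, hb'⟩ := D.trans2 D.s0 (D.g1 • D.s0) s t (Ne.symm D.g1_ne) h
  set u := D.g1 • D.s0 with hu
  have ev0 : ∀ {j : Fin (m + 2)} {s t : S}, s ≠ t →
      D.ev (D.Sp m j s * D.Sp (m + 1) j.succ t * D.Sp (m + 2) j.castSucc.castSucc t) =
      D.ev (D.Sp m j t * D.Sp (m + 1) j.succ s * D.Sp (m + 2) j.castSucc.castSucc s *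
        D.Pm (m + 3) (asw (m + 4) (j.val + 1))) := fun {j s t} h => by
    simp only [map_mul, ev_Sp, ev_Pm]
    exact SpS_cross D.s0 (n := m + 1) j h
  have base : D.Sp m 0 D.s0 * D.Sp (m + 1) 1 u * D.Sp (m + 2) 0 u =
      D.Sp m 0 u * D.Sp (m + 1) 1 D.s0 * D.Sp (m + 2) 0 D.s0 * D.Pm (m + 3) (asw (m + 4) 1) := by
    have hev := ev0 (j := 0) (Ne.symm D.g1_ne)
    rw [← hu] at hev
    rw [Fin.succ_zero_eq_one, Fin.castSucc_zero, Fin.castSucc_zero, Fin.val_zero, zero_add] at hev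
    have hXu : D.XX u = D.T D.g1 0 * D.X * D.T D.g1⁻¹ 1 * D.T D.g1⁻¹ 0 := by
      have h2 := D.T0_XX D.g1 D.s0
      rw [XX_s0] at h2
      rw [← T_inv, ← T_inv, h2, W_apply]
      group
      rfl
    simp only [Sp_zero, Sp_one, XX_s0, hXu, D.Pm_asw (show 1 ≤ m + 3 by omega), sg,
      show 1 < m + 3 by omega, if_true] at hev ⊢
    refine D.eq_of_ev
      [.x, .p 0, .t D.g1 0, .x, .t D.g1⁻¹ 1, .t D.g1⁻¹ 0, .p 1, .p 0, .t D.g1 0, .x, .t D.g1⁻¹ 1, .t D.g1⁻¹ 0]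
      [.t D.g1 0, .x, .t D.g1⁻¹ 1, .t D.g1⁻¹ 0, .p 0, .x, .p 1, .p 0, .x, .p 1] ?_ ?_ ?_ ?_ hev
    · simp [at', mul_assoc]
    · simp [at', mul_assoc]
    · simp [ok, Ext]
    · simp [ok, Ext]
  let π := Equiv.swap (0 : Fin (m + 2)) j
  let g : Fin (m + 2) → L := fun _ => a
  have h0 : π 0 = j := Equiv.swap_apply_left 0 j
  obtain ⟨g1, π1, e1⟩ := D.Sp_mu3 m g π 0 1 0 D.s0 u u
  obtain ⟨g2, π2, e2⟩ := D.Sp_mu3 m g π 0 1 0 u D.s0 D.s0
  have l1 : liftP π 0 1 = j.succ := by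
    refine val_chi_lift π 0 _ _ ?_
    have c : (1 : Fin (m + 3)) = (chi 0).symm none := Fin.ext (by rw [val_chi_symm_none]; simp)
    have d : j.succ = (chi j).symm none := Fin.ext (by rw [val_chi_symm_none]; simp)
    rw [c, h0, d, Equiv.apply_symm_apply, Equiv.apply_symm_apply, Option.map_none]
  have l0 : liftP π 0 0 = j.castSucc := by
    refine val_chi_lift π 0 _ _ ?_
    have c : (0 : Fin (m + 3)) = (chi 0).symm (some 0) := Fin.ext (by rw [val_chi_symm_some]; simp)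
    have d : j.castSucc = (chi j).symm (some j) := Fin.ext (by rw [val_chi_symm_some]; simp)
    rw [c, h0, d, Equiv.apply_symm_apply, Equiv.apply_symm_apply, Option.map_some, h0]
  have l2 : liftP (liftP π 0) 1 0 = j.castSucc.castSucc := by
    refine val_chi_lift (liftP π 0) 1 _ _ ?_
    have c : (0 : Fin (m + 4)) = (chi 1).symm (some 0) := Fin.ext (by rw [val_chi_symm_some]; simp)
    have d : j.castSucc.castSucc = (chi j.succ).symm (some j.castSucc) :=
      Fin.ext (by rw [val_chi_symm_some]; simp)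
    rw [c, l1, d, Equiv.apply_symm_apply, Equiv.apply_symm_apply, Option.map_some, l0]
  rw [base, h0, l1, l2, hb', ha] at e1
  rw [h0, l1, l2, hb', ha] at e2
  rw [← mul_assoc, e2, mul_assoc, ← mu_one_left, mu_mul] at e1
  have hRHS : ∀ w, D.Sp m j t * D.Sp (m + 1) j.succ s * D.Sp (m + 2) j.castSucc.castSucc s * w =
      D.Sp m j t * D.Sp (m + 1) j.succ s * D.Sp (m + 2) j.castSucc.castSucc s *
        D.Pm (m + 3) (asw (m + 4) (j.val + 1)) * (D.Pm (m + 3) (asw (m + 4) (j.val + 1)) * w) := fun w => by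
    rw [mul_assoc _ (D.Pm _ _), ← mul_assoc (D.Pm _ _) (D.Pm _ _) w, ← map_mul, asw_self (by omega), map_one,
      one_mul]
  rw [hRHS] at e1
  rw [← mu_one_left, mu_mul] at e1
  rw [← mu_one_left]
  exact D.eq_of_mu e1.symm (by rw [mu_one_left]; exact ev0 h)

/-- Rule (d). -/
theorem Sp_last : ∀ m, D.Sp m (Fin.last (m + 1)) D.s0 = 1
  | 0 => by
    have h := D.Sp_succ 0 0 (by omega) D.s0
    rw [show (⟨0, by omega⟩ : Fin (0 + 2)) = 0 from rfl, Sp_zero, XX_s0] at h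
    have hev : D.ev (D.Sp 0 (Fin.last 1) D.s0) = D.ev 1 := by rw [ev_Sp, map_one]; exact SpS_last D.s0 1
    rw [show (Fin.last 1) = (⟨0 + 1, by omega⟩ : Fin (0 + 2)) from rfl, h] at hev ⊢
    simp only [sg, Nat.zero_add, zero_lt_one, if_true, lt_irrefl, if_false] at hev ⊢
    exact D.eq_of_ev [.q 0, .x, .q 1, .p 0] [] (by simp [at', mul_assoc]) (by simp) (by simp [ok]) (by simp) hev
  | m + 1 => by
    have h := D.Sp_comm (m := m) 0 (Fin.last (m + 1)) (by simp) D.s0 D.s0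
    rw [Sp_last m, Fin.castSucc_zero, Sp_zero, Sp_zero, one_mul, Fin.succ_last] at h
    exact mul_eq_left.1 h

end Setup

end Vale.P193.SV
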