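import Vale.Agent.P193.SV.Brick
import Vale.Agent.P193.SV.Coxeter

/-!
P193, Thm B: semantic identities of the twisted Brin-Thompson group that the finite presentation uses.
-/

namespace Vale.P193.SV

theorem val_chi_symm_none {n : ℕ} (j : Fin (n + 1)) : ((chi j).symm none).val = j.val + 1 := by simp

theorem val_chi_symm_some {n : ℕ} (j i : Fin (n + 1)) :
    ((chi j).symm (some i)).val = if i.val ≤ j.val then i.val else i.val + 1 := by
  rw [finSuccEquiv'_symm_some]
  by_cases h : i.val ≤ j.val
  · rw [if_pos h, Fin.succAbove_of_castSucc_lt _ _ (by simp [Fin.lt_def]; omega)]; rfl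
  · rw [if_neg h, Fin.succAbove_of_le_castSucc _ _ (by simp [Fin.le_def]; omega)]; rfl

theorem val_par {n : ℕ} (j : Fin (n + 1)) (k : Fin (n + 2)) :
    (par j k).val = if k.val ≤ j.val then k.val else k.val - 1 := by
  obtain ⟨o, rfl⟩ := (chi j).symm.surjective k
  rw [par_symm]
  cases o with
  | none =>
    rw [val_chi_symm_none, Option.getD_none, if_neg (by omega)]
    omega
  | some i =>
    rw [val_chi_symm_some, Option.getD_some]
    split_ifs <;> omega

theorem part_eq {S : Type} [DecidableEq S] {n : ℕ} (j : Fin (n + 1)) (s : S) (k : Fin (n + 2)) :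
    part j s (chi j k) =
      if k.val = j.val then bat s [false] else if k.val = j.val + 1 then bat s [true] else fun _ => [] := by
  obtain ⟨o, rfl⟩ := (chi j).symm.surjective k
  rw [Equiv.apply_symm_apply]
  cases o with
  | none => simp [part, val_chi_symm_none]
  | some i =>
    rw [val_chi_symm_some]
    simp only [part, Fin.ext_iff]
    split_ifs <;> first | rfl | omega

theorem val_asw {n i : ℕ} (h : i < n) (x : Fin (n + 1)) :
    (asw n i x).val = if x.val = i then i + 1 else if x.val = i + 1 then i else x.val := by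
  simp only [asw, dif_pos h, Equiv.swap_apply_def, Fin.ext_iff]
  split_ifs <;> rfl

theorem asw_self {n : ℕ} {i : ℕ} (h : i < n) : asw n i * asw n i = 1 := (asw_typeA n).inv i h

theorem liftP_one {n : ℕ} (j : Fin (n + 1)) : liftP (1 : Equiv.Perm (Fin (n + 1))) j = 1 := by
  refine Equiv.ext fun k => (chi j).injective ?_
  have := chi_liftP (1 : Equiv.Perm (Fin (n + 1))) j k
  simpa using this

/-- Lifting a transposition through a split of a piece it fixes. -/
theorem liftP_asw {n i : ℕ} (hi : i < n) (j : Fin (n + 1)) (h : j.val < i ∨ i + 1 < j.val) :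
    liftP (asw n i) j = asw (n + 1) (if j.val < i then i + 1 else i) := by
  have hj : asw n i j = j := asw_fix n i j (by omega)
  refine Equiv.ext fun k => ?_
  obtain ⟨o, rfl⟩ := (chi j).symm.surjective k
  have e : liftP (asw n i) j ((chi j).symm o) = (chi j).symm (o.map (asw n i)) := by
    rw [Equiv.eq_symm_apply]
    have := chi_liftP (asw n i) j ((chi j).symm o)
    rwa [hj, Equiv.apply_symm_apply] at this
  rw [e]
  refine Fin.ext ?_
  rw [val_asw (by split <;> omega)]
  cases o with
  | none =>
    simp only [Option.map_none, val_chi_symm_none]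
    split_ifs <;> omega
  | some a =>
    simp only [Option.map_some, val_chi_symm_some, val_asw hi]
    split_ifs <;> omega

theorem par_mulSingle {n : ℕ} {M : Type} [One M] (j : Fin (n + 1)) (i : Fin (n + 1)) (g : M) (h : i ≠ j) :
    (fun k => (Pi.mulSingle i g : Fin (n + 1) → M) (par j k)) = Pi.mulSingle ((chi j).symm (some i)) g := by
  funext k
  obtain ⟨o, rfl⟩ := (chi j).symm.surjective k
  rw [par_symm]
  cases o with
  | none =>
    rw [Option.getD_none, Pi.mulSingle_eq_of_ne (Ne.symm h), Pi.mulSingle_eq_of_ne]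
    simp [(chi j).symm.injective.eq_iff]
  | some a =>
    rw [Option.getD_some]
    by_cases e : a = i
    · subst e; simp
    · rw [Pi.mulSingle_eq_of_ne e, Pi.mulSingle_eq_of_ne]
      intro c
      exact e (by simpa using (chi j).symm.injective c)

variable {S : Type} [DecidableEq S] {L : Type} [Group L] [MulAction L S] (s0 : S)

/-- Pure permutations. -/
def PermS (n : ℕ) (π : Equiv.Perm (Fin (n + 1))) : Equiv.Perm (Cs S) := MuS (L := L) s0 n 1 π

/-- Pure twists. -/
def TwS (n : ℕ) (g : Fin (n + 1) → L) : Equiv.Perm (Cs S) := MuS s0 n g 1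

theorem PermS_apply (n : ℕ) (π : Equiv.Perm (Fin (n + 1))) (j : Fin (n + 1)) (x : Cs S) :
    PermS (L := L) s0 n π (hb (piece s0 n j) x) = hb (piece s0 n (π j)) x := by
  simp [PermS, MuS_apply]

theorem PermS_mul (n : ℕ) (π π' : Equiv.Perm (Fin (n + 1))) :
    PermS (L := L) s0 n π * PermS (L := L) s0 n π' = PermS (L := L) s0 n (π * π') :=
  perm_ext s0 n fun j x => by simp [PermS_apply, Equiv.Perm.mul_apply]

theorem TwS_mul (n : ℕ) (g g' : Fin (n + 1) → L) : TwS s0 n g * TwS s0 n g' = TwS s0 n (g * g') := by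
  simp only [TwS, MuS_mul, mul_one]; rfl

theorem PermS_TwS (n : ℕ) (π : Equiv.Perm (Fin (n + 1))) (g : Fin (n + 1) → L) :
    PermS (L := L) s0 n π * TwS s0 n g = MuS s0 n g π :=
  perm_ext s0 n fun j x => by simp [PermS, TwS, MuS_apply, Equiv.Perm.mul_apply]

theorem PermS_TwS_conj (n : ℕ) (π : Equiv.Perm (Fin (n + 1))) (g : Fin (n + 1) → L) :
    PermS (L := L) s0 n π * TwS s0 n g = TwS s0 n (g ∘ π.symm) * PermS (L := L) s0 n π :=
  perm_ext s0 n fun j x => by simp [PermS, TwS, MuS_apply, Equiv.Perm.mul_apply]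

/-- The generator `X` in direction `s`. -/
def XS (s : S) : Equiv.Perm (Cs S) := SpS s0 1 0 s

/-- `SpS (n + 1) 0 s` does not depend on `n`. -/
theorem SpS_zero (n : ℕ) (s : S) : SpS s0 (n + 1) 0 s = XS s0 s := by
  refine perm_ext s0 (n + 2) fun k x => ?_
  rw [SpS_apply, part_eq]
  induction k using Fin.cases with
  | zero =>
    rw [show piece s0 (n + 2) 0 = piece s0 2 0 from rfl, XS, SpS_apply, part_eq]
    rfl
  | succ k =>
    induction k using Fin.cases with
    | zero =>
      rw [show piece s0 (n + 2) (Fin.succ 0) = piece s0 2 1 from rfl, XS, SpS_apply, part_eq]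
      rfl
    | succ k =>
      have h : par (0 : Fin (n + 2)) k.succ.succ = k.succ := Fin.ext (by simp [val_par])
      rw [h, piece_succ s0 (n + 1), piece_succ s0 n, hb_bapp, hb_bapp]
      have hp : bapp (bat s0 [true]) (bat s0 [true]) = piece s0 2 2 := by
        unfold piece
        rw [← bat_cons]
        rfl
      have h2 : par (0 : Fin 2) 2 = 1 := by decide
      have h3 : ∀ z, hb (bat s0 [true]) (hb (bat s0 [true]) z) = hb (piece s0 2 2) z := fun z => by
        rw [← hb_bapp, hp]
      simp only [hb_bapp]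
      rw [h3, XS, SpS_apply, part_eq, h2, show piece s0 1 1 = bat s0 [true] from rfl]
      simp

/-- Elements fixing the last piece do not depend on the level. -/
theorem MuS_stable (n : ℕ) (g : Fin (n + 1) → L) (π : Equiv.Perm (Fin (n + 1))) (hg : g (Fin.last n) = 1)
    (hπ : π (Fin.last n) = Fin.last n) :
    MuS s0 (n + 1) (fun k => g (par (Fin.last n) k)) (liftP π (Fin.last n)) = MuS s0 n g π := by
  have h := MuS_SpS s0 n g π (Fin.last n) s0
  rw [hg, one_smul, hπ, SpS_last, mul_one, one_mul] at h
  exact h.symm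

theorem asw_stable {n i : ℕ} (h : i + 2 ≤ n) :
    PermS (L := L) s0 n (asw n i) = PermS (L := L) s0 (i + 2) (asw (i + 2) i) := by
  induction n, h using Nat.le_induction with
  | base => rfl
  | succ n hn ih =>
    rw [← ih]
    have h1 := MuS_stable (L := L) s0 n 1 (asw n i) rfl (asw_fix n i _ (Or.inl (by simp; omega)))
    rw [liftP_asw (by omega) (Fin.last n) (Or.inr (by simp; omega)), if_neg (by simp; omega)] at h1
    exact h1

/-- The twist of piece `i` of level `n`. -/
def tw1 (n : ℕ) (i : ℕ) (g : L) : Fin (n + 1) → L := fun k => if k.val = i then g else 1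

theorem tw1_eq {n : ℕ} (i : Fin (n + 1)) (g : L) : tw1 n i.val g = Pi.mulSingle i g := by
  funext k
  simp [tw1, Pi.mulSingle_apply, Fin.ext_iff]

theorem tw1_par {n : ℕ} (j : Fin (n + 1)) {i : ℕ} (hi : i < n + 1) (h : i ≠ j.val) (g : L) :
    (fun k => tw1 n i g (par j k)) = tw1 (n + 1) (if i ≤ j.val then i else i + 1) g := by
  have e := par_mulSingle j ⟨i, hi⟩ g (fun c => h (congrArg Fin.val c))
  rw [← tw1_eq, ← tw1_eq, val_chi_symm_some] at e
  exact e

theorem tw1_stable {n i : ℕ} (h : i + 1 ≤ n) (g : L) :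
    TwS s0 n (tw1 n i g) = TwS s0 (i + 1) (tw1 (i + 1) i g) := by
  induction n, h using Nat.le_induction with
  | base => rfl
  | succ n hn ih =>
    rw [← ih]
    have h1 := MuS_stable s0 n (tw1 n i g) 1 (by simp [tw1]; omega) rfl
    rw [liftP_one, tw1_par (Fin.last n) (by omega) (by simp; omega) g, if_pos (by simp; omega)] at h1
    exact h1

theorem asw_split {n i : ℕ} (hi : i < n) (j : Fin (n + 1)) (h : j.val < i ∨ i + 1 < j.val) (s : S) :
    PermS (L := L) s0 n (asw n i) * SpS s0 n j s =
      SpS s0 n j s * PermS (L := L) s0 (n + 1) (asw (n + 1) (if j.val < i then i + 1 else i)) := by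
  have e := MuS_SpS (L := L) s0 n 1 (asw n i) j s
  rw [asw_fix n i j (by omega), Pi.one_apply, one_smul, liftP_asw hi j h] at e
  exact e

theorem tw1_split {n i : ℕ} (hi : i < n + 1) (j : Fin (n + 1)) (h : i ≠ j.val) (g : L) (s : S) :
    TwS s0 n (tw1 n i g) * SpS s0 n j s =
      SpS s0 n j s * TwS s0 (n + 1) (tw1 (n + 1) (if i ≤ j.val then i else i + 1) g) := by
  have e := MuS_SpS s0 n (tw1 n i g) 1 j s
  rw [Equiv.Perm.one_apply, liftP_one, tw1_par j hi h g] at e
  rw [TwS, TwS, e]
  simp [tw1, Ne.symm h]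

/-- Rule (b): splits of two different pieces commute. -/
theorem SpS_comm {n : ℕ} (i j : Fin (n + 1)) (h : i.val < j.val) (s t : S) :
    SpS s0 n i s * SpS s0 (n + 1) j.succ t = SpS s0 n j t * SpS s0 (n + 1) i.castSucc s := by
  refine perm_ext s0 (n + 2) fun k x => ?_
  simp only [Equiv.Perm.mul_apply, SpS_apply, part_eq]
  simp only [← hb_bapp]
  have hp : par i (par j.succ k) = par j (par i.castSucc k) := by
    refine Fin.ext ?_
    simp only [val_par, Fin.val_succ, Fin.val_castSucc]
    split_ifs <;> omega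
  rw [hp]
  congr 1
  congr 1
  simp only [val_par, Fin.val_succ, Fin.val_castSucc]
  split_ifs <;> first | omega | simp

end Vale.P193.SV
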