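import Vale.Agent.P193.SV.Pres

/-!
P193, Thm B: from the finitely many relators to the relations at all indices, by conjugating with `X`.
-/

namespace Vale.P193.SV

theorem liftP_asw_self {n i : ℕ} (hi : i < n) (j : Fin (n + 1)) (h : j.val = i) :
    liftP (asw n i) j = asw (n + 1) i * asw (n + 1) (i + 1) := by
  have hj : (asw n i j).val = i + 1 := by rw [val_asw hi, if_pos h]
  refine Equiv.ext fun k => ?_
  obtain ⟨o, rfl⟩ := (chi j).symm.surjective k
  have e : liftP (asw n i) j ((chi j).symm o) = (chi (asw n i j)).symm (o.map (asw n i)) := by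
    rw [Equiv.eq_symm_apply]
    simpa only [Equiv.apply_symm_apply] using chi_liftP (asw n i) j ((chi j).symm o)
  rw [e]
  refine Fin.ext ?_
  rw [Equiv.Perm.mul_apply, val_asw (by omega), val_asw (by omega)]
  cases o with
  | none =>
    simp only [Option.map_none, val_chi_symm_none, hj]
    split_ifs <;> omega
  | some a =>
    simp only [Option.map_some, val_chi_symm_some, val_asw hi, hj]
    split_ifs <;> omega

namespace Setup

variable {L S : Type} [Group L] [MulAction L S] [DecidableEq S] (D : Setup L S)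

/-- The sequence is shifted by `X`. -/
def Sh (Y : ℕ → D.Gam) : Prop := ∀ i, Y (i + 2) = D.X⁻¹ * Y (i + 1) * D.X

variable {D}

theorem Sh.mul {A B : ℕ → D.Gam} (hA : D.Sh A) (hB : D.Sh B) : D.Sh fun i => A i * B i := fun i => by
  show A (i + 2) * B (i + 2) = _
  rw [hA i, hB i]; group

theorem Sh.one : D.Sh fun _ => 1 := fun i => by group

theorem Sh.add {A : ℕ → D.Gam} (hA : D.Sh A) (k : ℕ) : D.Sh fun i => A (i + k) := fun i => by
  show A (i + 2 + k) = D.X⁻¹ * A (i + 1 + k) * D.X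
  rw [show i + 2 + k = i + k + 2 by omega, show i + 1 + k = i + k + 1 by omega]
  exact hA (i + k)

theorem Sh.eq {A B : ℕ → D.Gam} (hA : D.Sh A) (hB : D.Sh B) (h : A 1 = B 1) : ∀ i, A (i + 1) = B (i + 1)
  | 0 => h
  | i + 1 => by rw [hA i, hB i, Sh.eq hA hB h i]

variable (D)

/-- The splitting generators `x k`. -/
noncomputable def x : ℕ → D.Gam
  | 0 => D.X
  | 1 => D.p 0 * D.X * D.p 1 * D.p 0
  | k + 2 => D.X⁻¹ * x (k + 1) * D.X

theorem sh_x : D.Sh D.x := fun _ => rfl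

theorem sh_p : D.Sh D.p := fun i => by
  simp only [p, X, pF, shF, map_mul, map_inv]

theorem sh_q : D.Sh D.q := fun i => by
  simp only [q, X, qF, shF, map_mul, map_inv]

theorem sh_T (g : L) : D.Sh (D.T g) := fun i => by
  simp only [T, X, tF, shF, map_mul, map_inv]

theorem psi_mem_Ext (a : Fin D.n) : D.ψ (FreeGroup.of a) ∈ D.Ext := Or.inl (Or.inl ⟨a, rfl⟩)

theorem hom_ext_gen {f f' : L →* D.Gam}
    (h : ∀ a, f (D.ψ (FreeGroup.of a)) = f' (D.ψ (FreeGroup.of a))) : f = f' := by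
  have h2 : f.comp D.ψ = f'.comp D.ψ := FreeGroup.ext_hom _ _ h
  exact MonoidHom.ext fun g => by
    obtain ⟨w, rfl⟩ := D.ψ_surj g
    exact DFunLike.congr_fun h2 w

/-- The first twist is a homomorphism. -/
theorem T0_map (w : FreeGroup (Fin D.n)) :
    D.T (D.ψ w) 0 = PresentedGroup.mk D.rels (FreeGroup.map Sum.inl w) := by
  set f := (PresentedGroup.mk D.rels).comp (FreeGroup.map Sum.inl) with hf
  have hk : D.ψ.ker ≤ f.ker := by
    rw [← D.ψ_ker]
    refine Subgroup.normalClosure_le_normal fun r hr => ?_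
    exact PresentedGroup.one_of_mem (Or.inl ⟨r, hr, rfl⟩)
  show f (Function.surjInv D.ψ_surj (D.ψ w)) = f w
  rw [← mul_inv_eq_one, ← map_inv, ← map_mul]
  exact hk (by rw [MonoidHom.mem_ker, map_mul, map_inv, Function.surjInv_eq D.ψ_surj, mul_inv_cancel])

theorem T0_mul (g g' : L) : D.T (g * g') 0 = D.T g 0 * D.T g' 0 := by
  obtain ⟨u, rfl⟩ := D.ψ_surj g
  obtain ⟨v, rfl⟩ := D.ψ_surj g'
  rw [← map_mul, T0_map, T0_map, T0_map, map_mul, map_mul]

theorem p_inv_base (i : ℕ) (hi : i < 2) : D.p i * D.p i = 1 := by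
  have h := D.rel [.p i, .p i] [] ⟨by simp, by simp [ok]; omega⟩ ⟨by simp, by simp⟩ ?_
  · simpa [at'] using h
  · simp [at', PS, PermS_mul, asw_self, show PermS (L := L) D.s0 (i + 2) 1 = 1 from MuS_one D.s0 _]

theorem p_inv : ∀ i, D.p i * D.p i = 1
  | 0 => D.p_inv_base 0 (by omega)
  | i + 1 => (D.sh_p.mul D.sh_p).eq Sh.one (D.p_inv_base 1 (by omega)) i

theorem T1_eq (g : L) : D.T g 1 = D.p 0 * D.T g 0 * D.p 0 := by
  simp only [T, p, tF, pF, shF, map_mul]

theorem T_mul (g g' : L) : ∀ i, D.T (g * g') i = D.T g i * D.T g' i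
  | 0 => D.T0_mul g g'
  | i + 1 => by
    refine (D.sh_T (g * g')).eq ((D.sh_T g).mul (D.sh_T g')) ?_ i
    rw [T1_eq, T1_eq, T1_eq, T0_mul]
    calc D.p 0 * (D.T g 0 * D.T g' 0) * D.p 0
        = D.p 0 * D.T g 0 * 1 * (D.T g' 0 * D.p 0) := by group
      _ = _ := by rw [← D.p_inv 0]; group

/-- The twist of piece `i`. -/
noncomputable def TH (i : ℕ) : L →* D.Gam := MonoidHom.mk' (fun g => D.T g i) fun g g' => D.T_mul g g' i

theorem commute_gen (f : L →* D.Gam) (z : D.Gam) (h : ∀ a, Commute z (f (D.ψ (FreeGroup.of a)))) (g : L) :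
    Commute z (f g) := by
  have := DFunLike.congr_fun (D.hom_ext_gen (f := (MulAut.conj z).toMonoidHom.comp f) (f' := f) fun a => by
    simp [(h a).eq]) g
  have h2 : z * f g * z⁻¹ = f g := by simpa using this
  exact mul_inv_eq_iff_eq_mul.1 h2

theorem ev_x1 {N : ℕ} (hN : 2 ≤ N) (j : Fin (N + 1)) (hj : j.val = 1) : D.ev (D.x 1) = SpS D.s0 N j D.s0 := by
  obtain ⟨m, rfl⟩ : ∃ m, N = m + 1 := ⟨N - 1, by omega⟩
  have h := MuS_SpS (L := L) D.s0 (m + 1) 1 (asw (m + 1) 0) 0 D.s0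
  have e : asw (m + 1) 0 (0 : Fin (m + 2)) = j :=
    Fin.ext (by rw [val_asw (by omega), hj]; simp)
  rw [Pi.one_apply, one_smul, e, SpS_zero, liftP_asw_self (show (0 : ℕ) < m + 1 by omega) 0 rfl] at h
  have h' : D.PS 0 * XS D.s0 D.s0 = SpS D.s0 (m + 1) j D.s0 * (D.PS 0 * D.PS 1) := by
    have h3 := h
    rw [show MuS D.s0 (m + 1) (1 : Fin (m + 2) → L) (asw (m + 1) 0) = D.PS 0 from asw_stable D.s0 (by omega)] at h3
    rw [show (fun k => (1 : Fin (m + 2) → L) (par 0 k)) = 1 from rfl,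
      show MuS D.s0 (m + 1 + 1) (1 : Fin (m + 3) → L) (asw (m + 2) 0 * asw (m + 2) 1) = D.PS 0 * D.PS 1 by
        rw [show D.PS 0 = PermS (L := L) D.s0 (m + 2) (asw (m + 2) 0) from (asw_stable D.s0 (by omega)).symm,
          show D.PS 1 = PermS (L := L) D.s0 (m + 2) (asw (m + 2) 1) from (asw_stable D.s0 (by omega)).symm,
          PermS_mul]
        rfl] at h3
    exact h3
  have hp : ∀ i, D.PS i * D.PS i = 1 := fun i => by
    rw [← ev_p, ← map_mul, p_inv, map_one]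
  show D.ev (D.p 0 * D.X * D.p 1 * D.p 0) = _
  rw [map_mul, map_mul, map_mul, ev_p, ev_p, ev_X, h']
  calc SpS D.s0 (m + 1) j D.s0 * (D.PS 0 * D.PS 1) * D.PS 1 * D.PS 0
      = SpS D.s0 (m + 1) j D.s0 * (D.PS 0 * (D.PS 1 * D.PS 1) * D.PS 0) := by group
    _ = _ := by rw [hp, mul_one, hp, mul_one]

theorem ev_x : ∀ (k N : ℕ) (_ : k + 2 ≤ N) (j : Fin (N + 1)) (_ : j.val = k + 1),
    D.ev (D.x (k + 1)) = SpS D.s0 N j D.s0
  | 0, N, hN, j, hj => D.ev_x1 hN j hj
  | k + 1, N, hN, j, hj => by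
    obtain ⟨m, rfl⟩ : ∃ m, N = m + 2 := ⟨N - 2, by omega⟩
    have hc := SpS_comm D.s0 (n := m + 1) 0 ⟨k + 1, by omega⟩ (by simp) D.s0 D.s0
    rw [show (⟨k + 1, by omega⟩ : Fin (m + 2)).succ = j from Fin.ext hj.symm,
      show (0 : Fin (m + 2)).castSucc = 0 from rfl, SpS_zero, SpS_zero] at hc
    rw [show D.x (k + 1 + 1) = D.X⁻¹ * D.x (k + 1) * D.X from rfl, map_mul, map_mul, map_inv, ev_X,
      ev_x k (m + 1) (by omega) ⟨k + 1, by omega⟩ rfl, mul_assoc, ← hc, ← mul_assoc, inv_mul_cancel, one_mul]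

theorem PS_at {i N : ℕ} (h : i + 2 ≤ N) : D.PS i = PermS (L := L) D.s0 N (asw N i) := (asw_stable D.s0 h).symm

theorem TS_at {g : L} {i N : ℕ} (h : i + 1 ≤ N) : D.TS g i = TwS D.s0 N (tw1 N i g) := (tw1_stable D.s0 h g).symm

theorem PS_split_ge {i k : ℕ} (h : k + 1 < i) :
    D.ev (D.x (k + 1)) * D.PS (i + 1) = D.PS i * D.ev (D.x (k + 1)) := by
  have e := asw_split (L := L) D.s0 (n := i + 2) (i := i) (by omega) ⟨k + 1, by omega⟩ (Or.inl h) D.s0
  rw [if_pos (show (⟨k + 1, by omega⟩ : Fin (i + 2 + 1)).val < i from h),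
    ← D.ev_x k (i + 2) (by omega) _ rfl] at e
  exact e.symm

theorem QS_split_ge {i k : ℕ} (h : k + 1 < i) :
    D.ev (D.x (k + 1)) * D.QS (i + 1) = D.QS i * D.ev (D.x (k + 1)) := by
  have e := asw_split (L := L) D.s0 (n := i + 1) (i := i) (by omega) ⟨k + 1, by omega⟩ (Or.inl h) D.s0
  rw [if_pos (show (⟨k + 1, by omega⟩ : Fin (i + 1 + 1)).val < i from h),
    ← D.ev_x k (i + 1) (by omega) _ rfl] at e
  exact e.symm

theorem TS_split_ge {g : L} {i k : ℕ} (h : k + 1 < i) :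
    D.ev (D.x (k + 1)) * D.TS g (i + 1) = D.TS g i * D.ev (D.x (k + 1)) := by
  have e := tw1_split D.s0 (n := i + 1) (i := i) (by omega) ⟨k + 1, by omega⟩ (show i ≠ k + 1 by omega) g D.s0
  rw [if_neg (show ¬ i ≤ (⟨k + 1, by omega⟩ : Fin (i + 1 + 1)).val from not_le.2 h),
    ← D.ev_x k (i + 1) (by omega) _ rfl] at e
  exact e.symm

theorem PS_split_lt {i k : ℕ} (h : i + 1 < k + 1) : Commute (D.PS i) (D.ev (D.x (k + 1))) := by
  have e := asw_split (L := L) D.s0 (n := k + 2) (i := i) (by omega) ⟨k + 1, by omega⟩ (Or.inr h) D.s0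
  rw [if_neg (show ¬ (⟨k + 1, by omega⟩ : Fin (k + 2 + 1)).val < i by simp; omega),
    ← D.ev_x k (k + 2) (by omega) _ rfl, ← D.PS_at (by omega), ← D.PS_at (by omega)] at e
  exact e

theorem TS_split_lt {g : L} {i k : ℕ} (h : i < k + 1) : Commute (D.TS g i) (D.ev (D.x (k + 1))) := by
  have e := tw1_split D.s0 (n := k + 2) (i := i) (by omega) ⟨k + 1, by omega⟩ (show i ≠ k + 1 by omega) g D.s0
  rw [if_pos (show i ≤ (⟨k + 1, by omega⟩ : Fin (k + 2 + 1)).val from h.le),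
    ← D.ev_x k (k + 2) (by omega) _ rfl, ← D.TS_at (by omega), ← D.TS_at (by omega)] at e
  exact e

end Setup

end Vale.P193.SV
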