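import Vale.Agent.P193.SV.NormalForm
import Mathlib.GroupTheory.Subgroup.Simple
import Mathlib.GroupTheory.QuotientGroup.Basic

/-!
P193, Thm B: the presented group is simple.
-/

namespace Vale.P193.SV

theorem pre_agree (l : List Bool) {x y : ℕ → Bool} {k : ℕ} (h : ∀ i, i ≤ k → x i = y i) : pre l x k = pre l y k := by
  by_cases hk : k < l.length
  · rw [pre_apply_lt _ _ _ hk, pre_apply_lt _ _ _ hk]
  · obtain ⟨i, rfl⟩ : ∃ i, k = l.length + i := ⟨k - l.length, by omega⟩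
    rw [pre_apply_add, pre_apply_add, h i (by omega)]

theorem pre_agree_lt (l : List Bool) (x y : ℕ → Bool) {k : ℕ} (h : k < l.length) : pre l x k = pre l y k := by
  rw [pre_apply_lt _ _ _ h, pre_apply_lt _ _ _ h]

variable {S : Type} [DecidableEq S]

theorem bat_append (s : S) (l m : List Bool) : bapp (bat s l) (bat s m) = bat s (l ++ m) := by
  funext t; simp only [bapp, bat, Function.update_apply]; split <;> rfl

/-- The bit added to a piece by a split, as a list. -/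
def plist (j k : ℕ) : List Bool := if k = j then [false] else if k = j + 1 then [true] else []

theorem part_list {n : ℕ} (j : Fin (n + 1)) (s : S) (k : Fin (n + 2)) :
    part j s (chi j k) = bat s (plist j.val k.val) := by
  rw [part_eq, plist]
  split_ifs <;> simp [bat_nil]

theorem two_swaps_lists : ∀ k : Fin 5,
    let k' := (asw 4 0 * asw 4 1 * asw 4 0 * (asw 4 1 * asw 4 2 * asw 4 1)) k
    vine 2 (asw 2 0 (par (1 : Fin 3) (par (0 : Fin 4) k))).val ++
        (plist (1 : Fin 3).val (par (0 : Fin 4) k).val ++ plist (0 : Fin 4).val k.val) =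
      vine 2 (par (1 : Fin 3) (par (0 : Fin 4) k')).val ++
        (plist (1 : Fin 3).val (par (0 : Fin 4) k').val ++ plist (0 : Fin 4).val k'.val) := by
  decide

theorem half_false_notMem (s : S) (y : Cs S) :
    hb (bat s [true]) y ∉ Set.range (hb (bat s [false])) := by
  rintro ⟨w, h⟩
  have := congrFun (congrFun h s) 0
  simp [hb, bat, pre] at this

theorem half_cases (s : S) (x : Cs S) :
    x ∈ Set.range (hb (bat s [false])) ∨ ∃ w, hb (bat s [true]) w = x := by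
  obtain ⟨⟨a, w⟩, rfl⟩ := (halfEquiv s).surjective x
  cases a
  · exact Or.inl ⟨w, rfl⟩
  · exact Or.inr ⟨w, rfl⟩

namespace Setup

variable {L : Type} [Group L] [MulAction L S] (D : Setup L S)

/-- The element fixes every point outside `A`. -/
def Supp (A : Set (Cs S)) (a : D.Gam) : Prop := ∀ x, x ∉ A → D.ev a x = x

theorem Supp.inv {A : Set (Cs S)} {a : D.Gam} (h : D.Supp A a) : D.Supp A a⁻¹ := fun x hx => by
  rw [map_inv]
  exact (Equiv.symm_apply_eq _).2 (h x hx).symm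

theorem Supp.preserve {A : Set (Cs S)} {a : D.Gam} (h : D.Supp A a) {x : Cs S} (hx : x ∈ A) : D.ev a x ∈ A := by
  by_contra hc
  exact hc (by rw [(D.ev a).injective (h _ hc)]; exact hx)

theorem Supp.commute {A B : Set (Cs S)} {a b : D.Gam} (ha : D.Supp A a) (hb' : D.Supp B b)
    (hd : ∀ x ∈ A, x ∉ B) : Commute a b := by
  refine D.ev_injective ?_
  rw [map_mul, map_mul]
  refine Equiv.ext fun x => ?_
  simp only [Equiv.Perm.mul_apply]
  by_cases hA : x ∈ A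
  · rw [hb' x (hd x hA), hb' _ (hd _ (Supp.preserve D ha hA))]
  · by_cases hB : x ∈ B
    · have hm := Supp.preserve D hb' hB
      rw [ha _ (fun c => hd _ c hm), ha x hA]
    · rw [hb' x hB, ha x hA, hb' x hB]

theorem Supp.conj {A B : Set (Cs S)} {a f : D.Gam} (ha : D.Supp A a) (hf : ∀ x ∈ A, D.ev f x ∈ B) :
    D.Supp B (f * a * f⁻¹) := fun x hx => by
  rw [map_mul, map_mul, map_inv, Equiv.Perm.mul_apply, Equiv.Perm.mul_apply,
    ha _ (fun c => hx (by simpa using hf _ c)), Equiv.Perm.inv_def, Equiv.apply_symm_apply]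

/-- The commutator trick. -/
theorem commutator_mem {N : Subgroup D.Gam} [N.Normal] {A : Set (Cs S)} {z : D.Gam} (hz : z ∈ N)
    (hd : ∀ x ∈ A, D.ev z x ∉ A) {a b : D.Gam} (ha : D.Supp A a) (hb' : D.Supp A b) :
    a * b * a⁻¹ * b⁻¹ ∈ N := by
  let A' : Set (Cs S) := (D.ev z) '' A
  have ha' : D.Supp A' (z * a⁻¹ * z⁻¹) := Supp.conj D (Supp.inv D ha) fun x hx => ⟨x, hx, rfl⟩
  have hdis : ∀ x ∈ A', x ∉ A := by
    rintro _ ⟨y, hy, rfl⟩
    exact hd y hy
  have hc : Commute (z * a⁻¹ * z⁻¹) b := Supp.commute D ha' hb' hdis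
  have h1 : a * (z * a⁻¹ * z⁻¹) ∈ N := by
    have e : a * (z * a⁻¹ * z⁻¹) = (a * z * a⁻¹) * z⁻¹ := by group
    rw [e]
    exact mul_mem (Subgroup.Normal.conj_mem inferInstance _ hz a) (inv_mem hz)
  have h2 : a * (z * a⁻¹ * z⁻¹) * (b * (a * (z * a⁻¹ * z⁻¹))⁻¹ * b⁻¹) ∈ N :=
    mul_mem h1 (Subgroup.Normal.conj_mem inferInstance _ (inv_mem h1) b)
  have e : a * (z * a⁻¹ * z⁻¹) * (b * (a * (z * a⁻¹ * z⁻¹))⁻¹ * b⁻¹) = a * b * a⁻¹ * b⁻¹ := by
    calc _ = a * ((z * a⁻¹ * z⁻¹) * b) * (z * a⁻¹ * z⁻¹)⁻¹ * a⁻¹ * b⁻¹ := by group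
      _ = _ := by rw [hc.eq]; group
  rwa [e] at h2

theorem refine_coord : ∀ (N : ℕ) (σ : D.St), D.Path σ → ∀ (i : Fin (σ.n + 2)) (y : Cs S) (u : S),
    ∃ σ', D.Path σ' ∧ ∃ (j : Fin (σ'.n + 2)) (d : Brick S) (y' : Cs S),
      σ'.β j = bapp (σ.β i) d ∧ y = hb d y' ∧ N ≤ (d u).length
  | 0, σ, h, i, y, _ => ⟨σ, h, i, fun _ => [], y, (bapp_nil_right _).symm, rfl, Nat.zero_le _⟩
  | N + 1, σ, h, i, y, u => by
    obtain ⟨σ', h', j, d, y', e1, e2, e3⟩ := refine_coord N σ h i y u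
    obtain ⟨⟨a, w⟩, hw⟩ := (halfEquiv u).surjective y'
    refine ⟨σ'.split j u, h'.split j u, ?_⟩
    have hlen : N + 1 ≤ (bapp d (bat u [a]) u).length := by simp [bapp, bat]; omega
    have hy : y = hb (bapp d (bat u [a])) w := by rw [hb_bapp, e2, ← hw]; rfl
    cases a
    · exact ⟨j.castSucc, _, w, by rw [St.split_lo, lo, e1, bapp_assoc], hy, hlen⟩
    · exact ⟨j.succ, _, w, by rw [St.split_hi, hi, e1, bapp_assoc], hy, hlen⟩

/-- A nontrivial element moves some brick off itself, and the brick is the image of leaf `0`. -/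
theorem exists_moved {z : D.Gam} (hz : z ≠ 1) : ∃ (f : D.Gam) (B : Set (Cs S)),
    (∀ x ∈ Set.range (hb (bat D.s0 [false])), D.ev f x ∈ B) ∧ ∀ x ∈ B, D.ev z x ∉ B := by
  have hx : ∃ x0, D.ev z x0 ≠ x0 := by
    by_contra hc
    refine hz (D.ev_injective (Equiv.ext fun x => ?_))
    rw [map_one, Equiv.Perm.one_apply]
    by_contra hne
    exact hc ⟨x, hne⟩
  obtain ⟨x0, hx0⟩ := hx
  obtain ⟨s, hs⟩ := Function.ne_iff.1 hx0
  obtain ⟨k, hk⟩ := Function.ne_iff.1 hs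
  obtain ⟨σ, hσ, ⟨n, P, β, hg⟩, hρ, hn, g, π, hzeq⟩ := D.nf_all z
  cases hn
  obtain ⟨i, y, rfl⟩ := σ.covers x0
  have act : ∀ w, D.ev z (hb (σ.β i) w) = hb (β (π i)) (tw (g i) w) := fun w => by
    rw [hzeq, map_mul, map_mul, map_inv, Equiv.Perm.mul_apply, Equiv.Perm.mul_apply, ev_mu, ← σ.good,
      Equiv.Perm.inv_def, Equiv.symm_apply_apply, MuS_apply, hg]
  obtain ⟨σ₁, h₁, j₁, d₁, y₁, a1, a2, a3⟩ := D.refine_coord (k + 1) σ hσ i y ((g i)⁻¹ • s)
  obtain ⟨σ₂, h₂, j₂, d₂, y₂, b1, b2, b3⟩ := D.refine_coord (k + 1) σ₁ h₁ j₁ y₁ s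
  have hB : σ₂.β j₂ = bapp (σ.β i) (bapp d₁ d₂) := by rw [b1, a1, bapp_assoc]
  have hy : y = hb (bapp d₁ d₂) y₂ := by rw [hb_bapp, ← b2, ← a2]
  refine ⟨σ₂.P * D.Pm σ₂.n (Equiv.swap 0 j₂), Set.range (hb (σ₂.β j₂)), ?_, ?_⟩
  · rintro _ ⟨w, rfl⟩
    refine ⟨w, ?_⟩
    rw [map_mul, Equiv.Perm.mul_apply, ev_Pm, ← piece_zero D.s0 σ₂.n, PermS_apply, Equiv.swap_apply_left, σ₂.good]
  · rintro _ ⟨w, rfl⟩ ⟨w', hw'⟩
    rw [hB, hb_bapp (σ.β i) (bapp d₁ d₂) w', hb_bapp (σ.β i) (bapp d₁ d₂) w, act] at hw'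
    apply hk
    rw [act, hy]
    have c2 := congrFun (congrFun hw' s) k
    show pre (β (π i) s) (pre (bapp d₁ d₂ ((g i)⁻¹ • s)) (y₂ ((g i)⁻¹ • s))) k =
      pre (σ.β i s) (pre (bapp d₁ d₂ s) (y₂ s)) k
    calc pre (β (π i) s) (pre (bapp d₁ d₂ ((g i)⁻¹ • s)) (y₂ ((g i)⁻¹ • s))) k
        = pre (β (π i) s) (pre (bapp d₁ d₂ ((g i)⁻¹ • s)) (w ((g i)⁻¹ • s))) k :=
          pre_agree _ fun p hp => pre_agree_lt _ _ _ (by simp only [bapp, List.length_append]; omega)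
      _ = pre (σ.β i s) (pre (bapp d₁ d₂ s) (w' s)) k := c2.symm
      _ = _ := pre_agree _ fun p hp => pre_agree_lt _ _ _ (by simp only [bapp, List.length_append]; omega)

/-- Leaf `0`. -/
def A0 : Set (Cs S) := Set.range (hb (bat D.s0 [false]))

/-- Everything but the last piece of level `4`. -/
def C4 : Set (Cs S) := (Set.range (hb (piece D.s0 4 (Fin.last 4))))ᶜ

theorem supp_T0 (g : L) : D.Supp D.A0 (D.T g 0) := fun x hx => by
  rcases half_cases D.s0 x with h | ⟨w, rfl⟩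
  · exact absurd h hx
  · rw [ev_T]
    show TwS D.s0 1 (tw1 1 0 g) (hb (piece D.s0 1 1) w) = hb (piece D.s0 1 1) w
    rw [TwS, MuS_apply, Equiv.Perm.one_apply]
    simp [tw1]

theorem supp_p {i : ℕ} (h : i ≤ 2) : D.Supp D.C4 (D.p i) := fun x hx => by
  obtain ⟨w, rfl⟩ := not_not.1 hx
  rw [ev_p, D.PS_at (show i + 2 ≤ 4 by omega), PermS_apply, asw_fix 4 i (Fin.last 4) (Or.inl (by simp; omega))]

theorem E_tail (w : Cs S) :
    D.ev (D.X * D.X * D.X) (hb (piece D.s0 4 (Fin.last 4)) w) = hb (bat D.s0 [true]) w := by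
  have step : ∀ n, XS D.s0 D.s0 (hb (piece D.s0 (n + 2) (Fin.last (n + 2))) w) =
      hb (piece D.s0 (n + 1) (Fin.last (n + 1))) w := fun n => by
    rw [← SpS_zero D.s0 n, SpS_apply, part_eq,
      show par (0 : Fin (n + 2)) (Fin.last (n + 2)) = Fin.last (n + 1) from Fin.ext (by simp [val_par])]
    simp
  rw [map_mul, map_mul, ev_X, Equiv.Perm.mul_apply, Equiv.Perm.mul_apply, step 2, step 1, step 0]
  rfl

theorem supp_E {a : D.Gam} (ha : D.Supp D.C4 a) :
    D.Supp D.A0 ((D.X * D.X * D.X) * a * (D.X * D.X * D.X)⁻¹) := by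
  refine Supp.conj D ha fun x hx => ?_
  rcases half_cases D.s0 (D.ev (D.X * D.X * D.X) x) with h | ⟨w, hw⟩
  · exact h
  · exfalso
    rw [← D.E_tail w] at hw
    exact hx ⟨w, (D.ev _).injective hw⟩

theorem two_swaps : D.p 0 * (D.x 1 * D.X) =
    D.x 1 * D.X * (D.p 0 * D.p 1 * D.p 0 * (D.p 1 * D.p 2 * D.p 1)) := by
  refine D.ev_injective ?_
  rw [map_mul D.ev (D.p 0), show D.ev (D.p 0) = PermS (L := L) D.s0 2 (asw 2 0) from
    (D.ev_p 0).trans (D.PS_at (le_refl 2))]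
  simp only [map_mul]
  rw [D.ev_x1 (N := 2) le_rfl 1 rfl, ev_X, ← SpS_zero D.s0 2]
  simp only [map_mul, ev_p, D.PS_at (show 0 + 2 ≤ 4 by omega), D.PS_at (show 1 + 2 ≤ 4 by omega),
    D.PS_at (show 2 + 2 ≤ 4 by omega), PermS_mul]
  refine perm_ext D.s0 4 fun k x => ?_
  simp only [Equiv.Perm.mul_apply, PermS_apply, SpS_apply, part_list]
  simp only [← hb_bapp, piece, bat_append]
  rw [two_swaps_lists k]
  simp only [Equiv.Perm.mul_apply]

theorem T0_one : D.T 1 0 = 1 := map_one (D.TH 0)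

/-- The group is simple. -/
theorem isSimple : IsSimpleGroup D.Gam where
  exists_pair_ne := by
    refine ⟨D.T D.g1 0, 1, fun h => ?_⟩
    have e : D.ev (D.T D.g1 0) = D.ev (D.T 1 0) := by rw [h, D.T0_one]
    rw [ev_T, ev_T] at e
    obtain ⟨e', -⟩ := MuS_inj D.s0 D.faithful (show MuS D.s0 1 (tw1 1 0 D.g1) 1 = MuS D.s0 1 (tw1 1 0 1) 1 from e)
    exact D.g1_ne (by rw [show D.g1 = 1 from congrFun e' 0, one_smul])
  eq_bot_or_eq_top_of_normal := fun N hN => by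
    have := hN
    by_cases hbot : N = ⊥
    · exact Or.inl hbot
    refine Or.inr ?_
    obtain ⟨z, hzN, hz1⟩ := N.ne_bot_iff_exists_ne_one.1 hbot |> fun ⟨⟨z, h⟩, h'⟩ =>
      (⟨z, h, fun e => h' (Subtype.ext e)⟩ : ∃ z ∈ N, z ≠ 1)
    obtain ⟨f, B, hf, hB⟩ := D.exists_moved hz1
    let Φ : D.Gam →* D.Gam ⧸ N := QuotientGroup.mk' N
    have comm0 : ∀ a b, D.Supp D.A0 a → D.Supp D.A0 b → Commute (Φ a) (Φ b) := fun a b ha hb' => by
      have h := D.commutator_mem hzN hB (Supp.conj D ha hf) (Supp.conj D hb' hf)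
      have e : f * a * f⁻¹ * (f * b * f⁻¹) * (f * a * f⁻¹)⁻¹ * (f * b * f⁻¹)⁻¹ =
          f * (a * b * a⁻¹ * b⁻¹) * f⁻¹ := by group
      rw [e] at h
      have h' : a * b * a⁻¹ * b⁻¹ ∈ N := by
        have := hN.conj_mem _ h f⁻¹
        simpa [mul_assoc] using this
      have h'' : Φ (a * b * a⁻¹ * b⁻¹) = 1 := (QuotientGroup.eq_one_iff _).2 h'
      rw [map_mul, map_mul, map_mul, map_inv, map_inv, mul_inv_eq_one, mul_inv_eq_iff_eq_mul] at h''
      exact h''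
    have commE : ∀ i j, i ≤ 2 → j ≤ 2 → Commute (Φ (D.p i)) (Φ (D.p j)) := fun i j hi hj => by
      have h := (comm0 _ _ (D.supp_E (D.supp_p hi)) (D.supp_E (D.supp_p hj))).map
        (MulAut.conj (Φ (D.X * D.X * D.X))⁻¹).toMonoidHom
      simpa [mul_assoc] using h
    have sq : ∀ i, Φ (D.p i) * Φ (D.p i) = 1 := fun i => by rw [← map_mul, p_inv, map_one]
    have adj : ∀ i, i ≤ 1 → Φ (D.p (i + 1)) = Φ (D.p i) := fun i hi => by
      have hb' : Φ (D.p i) * Φ (D.p (i + 1)) * Φ (D.p i) = Φ (D.p (i + 1)) * Φ (D.p i) * Φ (D.p (i + 1)) := by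
        simp only [← map_mul, D.p_braid i]
      have c := commE i (i + 1) (by omega) (by omega)
      rw [c.eq, mul_assoc, sq, mul_one, ← c.eq, mul_assoc, sq, mul_one] at hb'
      exact hb'
    have hp1 := adj 0 (by omega)
    have hp2 : Φ (D.p 2) = Φ (D.p 0) := (adj 1 le_rfl).trans hp1
    have hp0 : Φ (D.p 0) = 1 := by
      have h := congrArg Φ D.two_swaps
      have hp1' : Φ (D.p 1) = Φ (D.p 0) := hp1
      simp only [map_mul, hp1', hp2, sq, one_mul, mul_one] at h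
      exact mul_eq_right.1 h
    have hp1' : Φ (D.p 1) = 1 := by rw [show Φ (D.p 1) = Φ (D.p 0) from hp1, hp0]
    have hq1 : Φ (D.q 1) = 1 := by
      have h := congrArg Φ (D.q_braid 0)
      simp only [map_mul, hp0, one_mul, mul_one] at h
      rw [← map_mul, D.q_inv, map_one] at h
      exact h
    have hq2 : Φ (D.q 2) = (Φ D.X)⁻¹ * Φ (D.q 1) * Φ D.X := by
      rw [D.sh_q 0, map_mul, map_mul, map_inv]
    have hX : Φ D.X = 1 := by
      have h := congrArg Φ (D.Sp_last 1)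
      rw [show Fin.last (1 + 1) = (⟨1 + 1, by omega⟩ : Fin (1 + 2)) from rfl, Sp_succ,
        show (⟨1, by omega⟩ : Fin (1 + 2)) = ⟨0 + 1, by omega⟩ from rfl, Sp_succ,
        show (⟨0, by omega⟩ : Fin (1 + 2)) = 0 from rfl, Sp_zero, XX_s0] at h
      simp only [sg, map_mul, map_one, if_true, if_false, lt_irrefl, show 0 < 1 by omega, show 1 < 2 by omega,
        show 0 < 2 by omega, show ¬2 < 2 by omega, show 1 + 1 = 2 by omega, Nat.zero_add, hq2, hq1, hp0, hp1',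
        one_mul, mul_one, inv_mul_cancel] at h
      exact h
    have hq0 : Φ (D.q 0) = 1 := by
      have h := congrArg Φ (D.Sp_last 0)
      rw [show Fin.last (0 + 1) = (⟨0 + 1, by omega⟩ : Fin (0 + 2)) from rfl, Sp_succ,
        show (⟨0, by omega⟩ : Fin (0 + 2)) = 0 from rfl, Sp_zero, XX_s0] at h
      simp only [sg, map_mul, map_one, if_true, if_false, lt_irrefl, Nat.zero_add, show 0 < 1 by omega, hq1, hp0, hX,
        one_mul, mul_one] at h
      exact h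
    have rel : ∀ g s, Φ (D.T g 0) * Φ (D.XX s) = Φ (D.XX (g • s)) * (Φ (D.T g 0) * Φ (D.T g 0)) := fun g s => by
      have h := congrArg Φ (D.T0_XX g s)
      simp only [W_apply, T1_eq, map_mul, hp0, one_mul, mul_one] at h
      exact h
    have hXs0 : Φ (D.XX D.s0) = 1 := by rw [XX_s0, hX]
    have tmul : ∀ g g', Φ (D.T (g * g') 0) = Φ (D.T g 0) * Φ (D.T g' 0) := fun g g' => by rw [T_mul, map_mul]
    have hstab : ∀ h, h • D.s0 = D.s0 → Φ (D.T h 0) = 1 := fun h hh => by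
      have := rel h D.s0
      rw [hh, hXs0, mul_one, one_mul] at this
      exact mul_eq_left.1 this.symm
    have hconst : ∀ g g', g • D.s0 ≠ D.s0 → g' • D.s0 ≠ D.s0 → Φ (D.T g 0) = Φ (D.T g' 0) := fun g g' hg hg' => by
      obtain ⟨h, h1, h2⟩ := D.trans2 D.s0 (g • D.s0) D.s0 (g' • D.s0) hg.symm hg'.symm
      have h3 : (g'⁻¹ * h * g) • D.s0 = D.s0 := by rw [mul_smul, mul_smul, h2, inv_smul_smul]
      have e : h * g = g' * (g'⁻¹ * h * g) := by group
      have := congrArg (fun a => Φ (D.T a 0)) e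
      rw [tmul, tmul, hstab h h1, hstab _ h3, one_mul, mul_one] at this
      exact this
    have hg12 : (D.g1⁻¹ * D.g2) • D.s0 ≠ D.s0 := fun e => by
      rw [mul_smul, inv_smul_eq_iff] at e
      exact D.g12_ne e.symm
    have hg1 : Φ (D.T D.g1 0) = 1 := by
      have e := tmul D.g1 (D.g1⁻¹ * D.g2)
      rw [mul_inv_cancel_left, hconst _ _ D.g2_ne D.g1_ne, hconst _ _ hg12 D.g1_ne] at e
      exact mul_eq_left.1 e.symm
    have ht : ∀ g, Φ (D.T g 0) = 1 := fun g => by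
      by_cases hg : g • D.s0 = D.s0
      · exact hstab g hg
      · rw [hconst g D.g1 hg D.g1_ne, hg1]
    rw [eq_top_iff]
    intro x _
    refine PresentedGroup.generated_by D.rels N ?_ x
    rintro (a | k)
    · have e : (PresentedGroup.of (Sum.inl a) : D.Gam) = D.T (D.ψ (FreeGroup.of a)) 0 := by
        rw [T0_map, FreeGroup.map.of]; rfl
      rw [e]
      exact (QuotientGroup.eq_one_iff _).1 (ht _)
    · fin_cases k
      · exact (QuotientGroup.eq_one_iff _).1 hX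
      · exact (QuotientGroup.eq_one_iff _).1 hp0
      · exact (QuotientGroup.eq_one_iff _).1 hp1'
      · exact (QuotientGroup.eq_one_iff _).1 hq0
      · exact (QuotientGroup.eq_one_iff _).1 hq1

end Setup

end Vale.P193.SV
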