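import Vale.Agent.P193.SV.Level

/-!
P193, Thm B: the splitting elements and rule (a).
-/

namespace Vale.P193.SV

theorem tw1_par_self {L : Type} [One L] {n : ℕ} (j : Fin (n + 1)) (g : L) :
    (fun k => if (par j k).val = j.val then g else (1 : L)) =
      fun k => if k.val = j.val ∨ k.val = j.val + 1 then g else 1 := by
  funext k
  rw [val_par]
  split_ifs <;> first | rfl | omega

/-- The extension of a permutation fixing `0`. -/
def ext0 (n : ℕ) : Equiv.Perm (Fin n) →* Equiv.Perm (Fin (n + 1)) :=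
  MonoidHom.mk' (fun e => Equiv.Perm.decomposeFin.symm (0, e)) fun a b => by
    refine Equiv.ext fun x => ?_
    induction x using Fin.cases with
    | zero => simp
    | succ i => simp

theorem ext0_asw {n k : ℕ} (h : k < n) : ext0 (n + 1) (asw n k) = asw (n + 1) (k + 1) := by
  refine Equiv.ext fun x => Fin.ext ?_
  rw [val_asw (by omega)]
  induction x using Fin.cases with
  | zero => simp [ext0]
  | succ i =>
    simp only [ext0, MonoidHom.mk'_apply, Equiv.Perm.decomposeFin_symm_apply_succ, Equiv.swap_self,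
      Equiv.refl_apply, Fin.val_succ, val_asw h]
    split_ifs <;> omega

theorem exists_ext0 {n : ℕ} (π : Equiv.Perm (Fin (n + 1))) (h : π 0 = 0) : ∃ e, ext0 n e = π := by
  refine ⟨(Equiv.Perm.decomposeFin π).2, ?_⟩
  show Equiv.Perm.decomposeFin.symm (0, (Equiv.Perm.decomposeFin π).2) = π
  have h1 : (Equiv.Perm.decomposeFin π).1 = 0 := by
    have := Equiv.Perm.decomposeFin_symm_apply_zero (Equiv.Perm.decomposeFin π).1 (Equiv.Perm.decomposeFin π).2
    rw [Prod.mk.eta, Equiv.symm_apply_apply, h] at this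
    exact this.symm
  rw [← h1, Prod.mk.eta, Equiv.symm_apply_apply]

namespace Setup

variable {L S : Type} [Group L] [MulAction L S] [DecidableEq S] (D : Setup L S)

omit [DecidableEq S] in
theorem exists_move (s : S) : ∃ g : L, g • D.s0 = s ∧ (s = D.s0 → g = 1) := by
  by_cases h : s = D.s0
  · exact ⟨1, by rw [one_smul, h], fun _ => rfl⟩
  · obtain ⟨g, hg, -⟩ := D.trans2 D.s0 (D.g1 • D.s0) s D.s0 (Ne.symm D.g1_ne) h
    exact ⟨g, hg, fun e => absurd e h⟩

/-- A chosen element moving `s0` to `s`. -/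
noncomputable def gs (s : S) : L := (D.exists_move s).choose

omit [DecidableEq S] in
theorem gs_smul (s : S) : D.gs s • D.s0 = s := (D.exists_move s).choose_spec.1

omit [DecidableEq S] in
theorem gs_s0 : D.gs D.s0 = 1 := (D.exists_move D.s0).choose_spec.2 rfl

/-- The twist of both halves of piece `0`. -/
noncomputable def W : L →* D.Gam :=
  MonoidHom.mk' (fun g => D.T g 0 * D.T g 1) fun g g' => by
    simp only [D.T_mul]
    exact (D.T_comm_T (g := g) (g' := g') (show (1 : ℕ) ≠ 0 by omega)).symm.mul_mul_mul_comm _ _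

theorem W_apply (g : L) : D.W g = D.T g 0 * D.T g 1 := rfl

/-- The splitting element of piece `0` in direction `s`. -/
noncomputable def XX (s : S) : D.Gam := D.T (D.gs s) 0 * D.X * (D.W (D.gs s))⁻¹

theorem XX_s0 : D.XX D.s0 = D.X := by
  rw [XX, gs_s0, map_one, show D.T 1 0 = 1 from map_one (D.TH 0), one_mul, inv_one, mul_one]

theorem TS_XS (g : L) (s : S) :
    D.TS g 0 * XS D.s0 s = XS D.s0 (g • s) * (D.TS g 0 * D.TS g 1) := by
  have e := MuS_SpS D.s0 1 (tw1 1 0 g) 1 0 s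
  rw [Equiv.Perm.one_apply, liftP_one, show tw1 1 0 g (0 : Fin 2) = g from rfl] at e
  show TwS D.s0 1 (tw1 1 0 g) * SpS D.s0 1 0 s = _
  rw [TwS, e]
  congr 1
  rw [D.TS_at (show 0 + 1 ≤ 2 by omega), D.TS_at (show 1 + 1 ≤ 2 by omega), TwS_mul]
  show TwS D.s0 2 _ = _
  congr 1
  funext k
  simp only [tw1, Pi.mul_apply, val_par, Fin.val_zero]
  split_ifs <;> first | omega | simp

theorem stab_rel {h : L} (hh : h • D.s0 = D.s0) : D.T h 0 * D.X = D.X * D.W h := by
  have key : Subgroup.closure (D.stab : Set L) ≤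
      MonoidHom.eqLocus ((MulAut.conj D.X⁻¹).toMonoidHom.comp (D.TH 0)) D.W := by
    rw [Subgroup.closure_le]
    intro a ha
    have hs : a • D.s0 = D.s0 := by
      have := Subgroup.subset_closure ha
      rw [D.stab_closure] at this
      exact this
    have e : D.T a 0 * D.X = D.X * D.W a := by
      have hE : a ∈ D.Ext := Or.inl (Or.inr ha)
      refine D.eq_of_ev [.t a 0, .x] [.x, .t a 0, .t a 1] (by simp [at']) (by simp [at', W_apply])
        (by simp [ok, hE]) (by simp [ok, hE]) ?_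
      simp only [map_mul, W_apply, ev_T, ev_X]
      have := D.TS_XS a D.s0
      rwa [hs] at this
    show D.X⁻¹ * D.T a 0 * (D.X⁻¹)⁻¹ = D.W a
    rw [inv_inv, mul_assoc, e, ← mul_assoc, inv_mul_cancel, one_mul]
  have := key (show h ∈ Subgroup.closure (D.stab : Set L) by rw [D.stab_closure]; exact hh)
  have e : D.X⁻¹ * D.T h 0 * (D.X⁻¹)⁻¹ = D.W h := this
  rw [← e]; group

theorem T0_XX (g : L) (s : S) : D.T g 0 * D.XX s = D.XX (g • s) * D.W g := by
  set a := D.gs s
  set b := D.gs (g • s)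
  have hh : (b⁻¹ * g * a) • D.s0 = D.s0 := by
    rw [mul_smul, mul_smul, D.gs_smul, inv_smul_eq_iff, D.gs_smul]
  have e := D.stab_rel hh
  have hT : D.T g 0 * D.T a 0 = D.T b 0 * D.T (b⁻¹ * g * a) 0 := by
    rw [← D.T_mul, ← D.T_mul]; congr 1; group
  calc D.T g 0 * (D.T a 0 * D.X * (D.W a)⁻¹)
      = D.T b 0 * (D.T (b⁻¹ * g * a) 0 * D.X) * (D.W a)⁻¹ := by rw [← mul_assoc, ← mul_assoc, hT]; group
    _ = D.T b 0 * D.X * (D.W (b⁻¹ * g * a) * (D.W a)⁻¹) := by rw [e]; group
    _ = D.T b 0 * D.X * ((D.W b)⁻¹ * D.W g) := by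
        rw [← map_inv, ← map_mul, ← map_inv, ← map_mul]; congr 2; group
    _ = _ := by rw [← mul_assoc]; rfl

theorem ev_XX (s : S) : D.ev (D.XX s) = XS D.s0 s := by
  rw [XX, map_mul, map_mul, map_inv, ev_T, ev_X, W_apply, map_mul, ev_T, ev_T, mul_inv_eq_iff_eq_mul, D.TS_XS,
    D.gs_smul]

/-- Conjugated by a twist: a commutation with `X` becomes one with every `XX s`. -/
theorem XX_of_X {z z' : D.Gam} (h : z * D.X = D.X * z') (hz : ∀ g, Commute z (D.T g 0))
    (hz' : ∀ g, Commute z' (D.W g)) (s : S) : z * D.XX s = D.XX s * z' := by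
  unfold XX
  calc z * (D.T (D.gs s) 0 * D.X * (D.W (D.gs s))⁻¹) = D.T (D.gs s) 0 * (z * D.X) * (D.W (D.gs s))⁻¹ := by
        rw [← mul_assoc, ← mul_assoc, (hz _).eq]; group
    _ = D.T (D.gs s) 0 * D.X * (z' * (D.W (D.gs s))⁻¹) := by rw [h]; group
    _ = _ := by rw [(hz' _).inv_right.eq]; group

theorem sh_X {Y : ℕ → D.Gam} (hY : D.Sh Y) (i : ℕ) : Y (i + 1) * D.X = D.X * Y (i + 2) := by
  rw [hY i]; group

theorem W_comm {z : D.Gam} (h0 : ∀ g, Commute z (D.T g 0)) (h1 : ∀ g, Commute z (D.T g 1)) (g : L) :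
    Commute z (D.W g) := (h0 g).mul_right (h1 g)

theorem p_XX (i : ℕ) (s : S) : D.p (i + 1) * D.XX s = D.XX s * D.p (i + 2) :=
  D.XX_of_X (D.sh_X D.sh_p i) (fun _ => (D.T_comm_p_gt _ 0 _ (by omega)).symm)
    (D.W_comm (fun _ => (D.T_comm_p_gt _ 0 _ (by omega)).symm)
      fun _ => (D.T_comm_p_gt _ 1 _ (by omega)).symm) s

theorem q_XX (i : ℕ) (s : S) : D.q (i + 1) * D.XX s = D.XX s * D.q (i + 2) :=
  D.XX_of_X (D.sh_X D.sh_q i) (fun _ => (D.T_comm_q _ 0 _ (by omega)).symm)
    (D.W_comm (fun _ => (D.T_comm_q _ 0 _ (by omega)).symm)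
      fun _ => (D.T_comm_q _ 1 _ (by omega)).symm) s

theorem T_XX (g : L) (i : ℕ) (s : S) : D.T g (i + 1) * D.XX s = D.XX s * D.T g (i + 2) :=
  D.XX_of_X (D.sh_X (D.sh_T g) i) (fun _ => D.T_comm_T (by omega))
    (D.W_comm (fun _ => D.T_comm_T (by omega)) fun _ => D.T_comm_T (by omega)) s

theorem U0_X (g : L) : D.U g 0 * D.X = D.X * D.U g 1 := by
  have e := DFunLike.congr_fun (D.hom_ext_gen (f := (MulAut.conj D.X⁻¹).toMonoidHom.comp (D.UH 0))
    (f' := D.UH 1) fun a => ?_) g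
  · have e' : D.X⁻¹ * D.U g 0 * (D.X⁻¹)⁻¹ = D.U g 1 := e
    rw [← e']; group
  · show D.X⁻¹ * D.U _ 0 * (D.X⁻¹)⁻¹ = D.U _ 1
    set h := D.ψ (FreeGroup.of a)
    have hE : h ∈ D.Ext := D.psi_mem_Ext a
    have e : D.U h 0 * D.X = D.X * D.U h 1 := by
      refine D.eq_of_ev [.q 0, .t h 0, .q 0, .x] [.x, .q 1, .t h 1, .q 1] (by simp [at', U, mul_assoc])
        (by simp [at', U, mul_assoc]) (by simp [ok, hE]) (by simp [ok, hE]) ?_
      simp only [map_mul, U, ev_q, ev_T, ev_X, U_eq]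
      have := tw1_split D.s0 (n := 1) (i := 1) (by omega) 0 (by simp) h D.s0
      rw [if_neg (show ¬(1 ≤ (0 : Fin 2).val) by simp)] at this
      exact this
    rw [inv_inv, mul_assoc, e, ← mul_assoc, inv_mul_cancel, one_mul]

theorem U_XX (g : L) (m : ℕ) (s : S) : D.U g m * D.XX s = D.XX s * D.U g (m + 1) := by
  cases m with
  | zero =>
    exact D.XX_of_X (D.U0_X g) (fun _ => D.U_comm_T le_rfl)
      (D.W_comm (fun _ => D.U_comm_T (by omega)) fun _ => D.U_comm_T (by omega)) s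
  | succ m =>
    exact D.XX_of_X (D.sh_X (D.sh_U g) m) (fun _ => D.U_comm_T (by omega))
      (D.W_comm (fun _ => D.U_comm_T (by omega)) fun _ => D.U_comm_T (by omega)) s

theorem sg_XX {m k : ℕ} (hk : k + 1 ≤ m) (s : S) :
    D.sg m (k + 1) * D.XX s = D.XX s * D.sg (m + 1) (k + 2) := by
  unfold sg
  by_cases h : k + 1 < m
  · rw [if_pos h, if_pos (by omega)]; exact D.p_XX k s
  · obtain rfl : m = k + 1 := by omega
    rw [if_neg h, if_neg (by omega)]; exact D.q_XX k s

theorem Tk_XX {m k : ℕ} (s : S) (hk : k ≤ m) (g : L) :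
    D.Tk m (k + 1) g * D.XX s = D.XX s * D.Tk (m + 1) (k + 2) g := by
  by_cases h : k + 1 ≤ m
  · rw [D.Tk_le h, D.Tk_le (by omega)]; exact D.T_XX g k s
  · obtain rfl : m = k := by omega
    rw [D.Tk_top (by omega), D.Tk_top (by omega)]; exact D.U_XX g _ s

theorem base_perm (m : ℕ) (π : Equiv.Perm (Fin (m + 2))) (hπ : π 0 = 0) (s : S) :
    D.Pm m π * D.XX s = D.XX s * D.Pm (m + 1) (liftP π 0) := by
  obtain ⟨e, rfl⟩ := exists_ext0 π hπ
  clear hπ
  have hsub : e ∈ Submonoid.closure (Set.range fun i : Fin m => Equiv.swap i.castSucc i.succ) := by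
    rw [Equiv.Perm.mclosure_swap_castSucc_succ]; trivial
  induction hsub using Submonoid.closure_induction with
  | mem x hx =>
    obtain ⟨k, rfl⟩ := hx
    simp only [← asw_castSucc]
    rw [ext0_asw k.2, liftP_asw (by omega) 0 (Or.inl (by simp)), if_pos (by simp), D.Pm_asw (by omega),
      D.Pm_asw (by omega)]
    exact D.sg_XX (by omega) s
  | one => rw [map_one, map_one, liftP_one, map_one, one_mul, mul_one]
  | mul a b _ _ ha hb =>
    rw [map_mul, map_mul, liftP_mul, map_mul, show ext0 (m + 1) b 0 = 0 by simp [ext0], mul_assoc, hb,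
      ← mul_assoc, ha, mul_assoc]

theorem base_twist (m : ℕ) (g : Fin (m + 2) → L) (s : S) :
    D.Tw m g * D.XX s = D.XX (g 0 • s) * D.Tw (m + 1) (fun k => g (par 0 k)) := by
  let em : (Fin (m + 1) → L) →* (Fin (m + 2) → L) :=
    MonoidHom.mk' (fun f => (Fin.cons 1 f : Fin (m + 2) → L)) fun a b => by funext i; induction i using Fin.cases <;> simp
  let pm : (Fin (m + 2) → L) →* (Fin (m + 3) → L) :=
    MonoidHom.mk' (fun g k => g (par 0 k)) fun a b => rfl
  have h1 : (MulAut.conj (D.XX s)⁻¹).toMonoidHom.comp ((D.Tw m).comp em) =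
      (D.Tw (m + 1)).comp (pm.comp em) := by
    refine pi_hom_ext fun i x => ?_
    have hem : em (Pi.mulSingle i x) = Pi.mulSingle i.succ x := by
      funext j
      induction j using Fin.cases with
      | zero => simp [em, (Fin.succ_ne_zero i).symm]
      | succ j => simp [em, Pi.mulSingle_apply]
    simp only [MonoidHom.comp_apply, MulEquiv.coe_toMonoidHom, MulAut.conj_apply, inv_inv, hem]
    have hpm : pm (Pi.mulSingle i.succ x) = Pi.mulSingle ((chi 0).symm (some i.succ)) x :=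
      par_mulSingle 0 i.succ x (Fin.succ_ne_zero i)
    rw [hpm, Tw_single, Tw_single, val_chi_symm_some, if_neg (by simp), Fin.val_succ]
    rw [mul_assoc, D.Tk_XX s (by omega) x, ← mul_assoc, inv_mul_cancel, one_mul]
  have hg : g = Pi.mulSingle 0 (g 0) * em (fun i => g i.succ) := by
    funext j
    induction j using Fin.cases with
    | zero => simp [em]
    | succ j => simp [em, Fin.succ_ne_zero]
  have h2 := DFunLike.congr_fun h1 (fun i => g i.succ)
  simp only [MonoidHom.comp_apply, MulEquiv.coe_toMonoidHom, MulAut.conj_apply, inv_inv] at h2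
  have h2' : D.Tw m (em fun i => g i.succ) * D.XX s = D.XX s * D.Tw (m + 1) (pm (em fun i => g i.succ)) := by
    rw [← h2]; group
  have h3 : pm (Pi.mulSingle 0 (g 0)) =
      Pi.mulSingle (0 : Fin (m + 3)) (g 0) * Pi.mulSingle (1 : Fin (m + 3)) (g 0) := by
    funext k
    show (Pi.mulSingle (0 : Fin (m + 2)) (g 0) : Fin (m + 2) → L) (par 0 k) = _
    induction k using Fin.cases with
    | zero =>
      rw [show par (0 : Fin (m + 2)) 0 = 0 from Fin.ext (by simp [val_par])]
      simp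
    | succ i =>
      rw [show par (0 : Fin (m + 2)) i.succ = i from Fin.ext (by simp [val_par])]
      induction i using Fin.cases with
      | zero => simp [Fin.succ_zero_eq_one]
      | succ l =>
        have h1 : l.succ.succ ≠ (1 : Fin (m + 3)) := fun e => by
          have := congrArg Fin.val e
          simp only [Fin.val_succ, Fin.val_one] at this
          omega
        simp [Fin.succ_ne_zero, h1]
  calc D.Tw m g * D.XX s
      = D.Tw m (Pi.mulSingle 0 (g 0)) * (D.Tw m (em fun i => g i.succ) * D.XX s) := by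
        conv_lhs => rw [hg, map_mul]
        group
    _ = D.T (g 0) 0 * D.XX s * D.Tw (m + 1) (pm (em fun i => g i.succ)) := by
        rw [h2', Tw_single, D.Tk_le (show ((0 : Fin (m + 2)) : ℕ) ≤ m by simp)]; simp only [Fin.val_zero]; group
    _ = D.XX (g 0 • s) * (D.Tw (m + 1) (pm (Pi.mulSingle 0 (g 0))) *
          D.Tw (m + 1) (pm (em fun i => g i.succ))) := by
        rw [D.T0_XX, h3, map_mul, Tw_single, Tw_single, D.Tk_le (show ((0 : Fin (m + 3)) : ℕ) ≤ m + 1 by simp),
          D.Tk_le (show ((1 : Fin (m + 3)) : ℕ) ≤ m + 1 by simp)]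
        rw [W_apply, Fin.val_zero, Fin.val_one]
        group
    _ = _ := by rw [← map_mul, ← map_mul, ← hg]; rfl

/-- The splitting element of level `m + 1`. -/
noncomputable def Sp (m : ℕ) (j : Fin (m + 2)) (s : S) : D.Gam :=
  D.Pm m (Equiv.swap 0 j) * D.XX s * (D.Pm (m + 1) (liftP (Equiv.swap 0 j) 0))⁻¹

theorem Sp_zero (m : ℕ) (s : S) : D.Sp m 0 s = D.XX s := by
  simp [Sp, Equiv.swap_self, ← Equiv.Perm.one_def, liftP_one]

theorem ev_Sp (m : ℕ) (j : Fin (m + 2)) (s : S) : D.ev (D.Sp m j s) = SpS D.s0 (m + 1) j s := by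
  rw [Sp, map_mul, map_mul, map_inv, ev_Pm, ev_Pm, ev_XX, mul_inv_eq_iff_eq_mul]
  have h := MuS_SpS D.s0 (m + 1) (1 : Fin (m + 2) → L) (Equiv.swap 0 j) 0 s
  rw [Equiv.swap_apply_left, Pi.one_apply, one_smul, SpS_zero] at h
  exact h

/-- Rule (a). -/
theorem mu_Sp (m : ℕ) (g : Fin (m + 2) → L) (π : Equiv.Perm (Fin (m + 2))) (j : Fin (m + 2)) (s : S) :
    D.mu m g π * D.Sp m j s = D.Sp m (π j) (g j • s) * D.mu (m + 1) (fun k => g (par j k)) (liftP π j) := by
  set a := Equiv.swap (0 : Fin (m + 2)) j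
  set b := Equiv.swap (0 : Fin (m + 2)) (π j)
  set r := b * π * a with hr
  have hr0 : r 0 = 0 := by simp [hr, a, b]
  have e1 : D.mu m g π * D.Pm m a = D.Pm m b * D.mu m (fun k => g (a k)) r := by
    rw [← mu_one_left, mu_mul, ← mu_one_left, mu_mul]
    congr 1
    · funext k; simp
    · rw [hr, ← mul_assoc, ← mul_assoc, Equiv.swap_mul_self, one_mul]
  have e2 : D.mu m (fun k => g (a k)) r * D.XX s =
      D.XX (g j • s) * D.mu (m + 1) (fun k => g (a (par 0 k))) (liftP r 0) := by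
    unfold mu
    rw [mul_assoc, base_twist, ← mul_assoc, D.base_perm m r hr0, show a 0 = j from Equiv.swap_apply_left 0 j]
    group
  have e3 : D.mu (m + 1) (fun k => g (a (par 0 k))) (liftP r 0) * (D.Pm (m + 1) (liftP a 0))⁻¹ =
      (D.Pm (m + 1) (liftP b 0))⁻¹ * D.mu (m + 1) (fun k => g (par j k)) (liftP π j) := by
    rw [eq_inv_mul_iff_mul_eq, ← mul_assoc, mul_inv_eq_iff_eq_mul, ← mu_one_left, mu_mul, ← mu_one_left, mu_mul]
    have ha0 : a 0 = j := Equiv.swap_apply_left 0 j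
    congr 1
    · funext k
      simp only [Pi.one_apply, one_mul, mul_one]
      rw [← par_liftP a 0 k, ha0]
    · rw [← ha0, ← liftP_mul]
      nth_rewrite 1 [← hr0]
      rw [← liftP_mul, hr, ← mul_assoc, ← mul_assoc, Equiv.swap_mul_self, one_mul]
  unfold Sp
  calc D.mu m g π * (D.Pm m a * D.XX s * (D.Pm (m + 1) (liftP a 0))⁻¹)
      = D.Pm m b * (D.mu m (fun k => g (a k)) r * D.XX s) * (D.Pm (m + 1) (liftP a 0))⁻¹ := by
        rw [← mul_assoc, ← mul_assoc, e1]; group
    _ = D.Pm m b * D.XX (g j • s) *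
          (D.mu (m + 1) (fun k => g (a (par 0 k))) (liftP r 0) * (D.Pm (m + 1) (liftP a 0))⁻¹) := by
        rw [e2]; group
    _ = D.Pm m b * D.XX (g j • s) * (D.Pm (m + 1) (liftP b 0))⁻¹ *
          D.mu (m + 1) (fun k => g (par j k)) (liftP π j) := by rw [e3]; group
    _ = _ := rfl

end Setup

end Vale.P193.SV
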