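import Vale.Agent.P193.SV.Rules

/-!
P193, Thm B: states (a path of splits with its bricks) and binary trees acting on them.
-/

namespace Vale.P193.SV

section Bricks

variable {S : Type}

theorem pre_eq {l l' : List Bool} {f : (ℕ → Bool) → ℕ → Bool} (hf : Function.Surjective f)
    (h : ∀ x, pre l (f x) = pre l' x) : l = l' := by
  rcases Nat.lt_trichotomy l.length l'.length with hl | hl | hl
  · obtain ⟨x, hx⟩ := hf fun _ => ! l'[l.length]
    have := congrFun (h x) (l.length + 0)
    rw [pre_apply_add, hx, Nat.add_zero, pre_apply_lt _ _ _ hl] at this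
    simp at this
  · refine List.ext_getElem hl fun k h1 h2 => ?_
    have := congrFun (h fun _ => false) k
    rwa [pre_apply_lt _ _ _ h1, pre_apply_lt _ _ _ h2] at this
  · have := congrFun (h fun _ => ! l[l'.length]) (l'.length + 0)
    rw [pre_apply_add, Nat.add_zero, pre_apply_lt _ _ _ hl] at this
    simp at this

theorem brick_ext {b c : Brick S} (h : ∀ x, hb b x = hb c x) : b = c := by
  funext s
  exact pre_eq Function.surjective_id fun x => congrFun (h fun _ => x) s

theorem brick_ext_tw {L : Type} [Group L] [MulAction L S] {b c : Brick S} {g : L}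
    (h : ∀ x, hb b (tw g x) = hb c x) : b = c := by
  funext s
  refine pre_eq (f := id) Function.surjective_id fun x => ?_
  exact congrFun (h fun _ => x) s

end Bricks

namespace Setup

variable {L S : Type} [Group L] [MulAction L S] [DecidableEq S] (D : Setup L S)

/-- A path with its bricks. -/
structure St where
  n : ℕ
  P : D.Gam
  β : Fin (n + 2) → Brick S
  good : ∀ k x, D.ev P (hb (piece D.s0 (n + 1) k) x) = hb (β k) x

variable {D}

theorem St.ext' {n : ℕ} {P P' : D.Gam} {β β' : Fin (n + 2) → Brick S} {h h'} (e : P = P') :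
    St.mk (D := D) n P β h = St.mk n P' β' h' := by
  subst e
  obtain rfl : β = β' := funext fun k => brick_ext fun x => by rw [← h k x, h' k x]
  rfl

theorem St.hb_inj (σ : D.St) {i j : Fin (σ.n + 2)} {x y : Cs S} (h : hb (σ.β i) x = hb (σ.β j) y) :
    i = j ∧ x = y := by
  rw [← σ.good, ← σ.good] at h
  exact piece_inj D.s0 _ ((D.ev σ.P).injective h)

theorem St.β_inj (σ : D.St) : Function.Injective σ.β := fun i j h =>
  (σ.hb_inj (i := i) (j := j) (x := fun _ _ => false) (y := fun _ _ => false) (by rw [h])).1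

theorem St.covers (σ : D.St) (z : Cs S) : ∃ k x, hb (σ.β k) x = z := by
  obtain ⟨w, rfl⟩ := (D.ev σ.P).surjective z
  obtain ⟨k, x, rfl⟩ := exists_piece D.s0 (σ.n + 1) w
  exact ⟨k, x, (σ.good k x).symm⟩

/-- Reorder the pieces. -/
noncomputable abbrev St.perm (σ : D.St) (π : Equiv.Perm (Fin (σ.n + 2))) : D.St where
  n := σ.n
  P := σ.P * D.Pm σ.n π
  β k := σ.β (π k)
  good k x := by rw [map_mul, Equiv.Perm.mul_apply, ev_Pm, PermS_apply, σ.good]

/-- Split a piece. -/
noncomputable abbrev St.split (σ : D.St) (j : Fin (σ.n + 2)) (s : S) : D.St where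
  n := σ.n + 1
  P := σ.P * D.Sp σ.n j s
  β k := bapp (σ.β (par j k)) (part j s (chi j k))
  good k x := by rw [map_mul, Equiv.Perm.mul_apply, ev_Sp, SpS_apply, σ.good, hb_bapp]

/-- Equal up to reordering the pieces. -/
inductive Same : D.St → D.St → Prop
  | mk (σ : D.St) (π : Equiv.Perm (Fin (σ.n + 2))) : Same σ (σ.perm π)

theorem Same.refl (σ : D.St) : Same σ σ := by
  have h : σ.perm 1 = σ := by
    cases σ
    exact St.ext' (by simp)
  have := Same.mk σ 1
  rwa [h] at this

theorem Same.trans {σ τ ρ : D.St} (h : Same σ τ) (h' : Same τ ρ) : Same σ ρ := by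
  cases h with
  | mk π =>
    cases h' with
    | mk π' =>
      have e : (σ.perm π).perm π' = σ.perm (π * π') :=
        St.ext' (show σ.P * D.Pm σ.n π * D.Pm σ.n π' = σ.P * D.Pm σ.n (π * π') by rw [map_mul, mul_assoc])
      have := Same.mk σ (π * π')
      rwa [← e] at this

theorem Same.symm {σ τ : D.St} (h : Same σ τ) : Same τ σ := by
  cases h with
  | mk π =>
    have e : σ = (σ.perm π).perm π⁻¹ := by
      cases σ
      exact St.ext' (by simp only [St.perm]; rw [mul_assoc, ← map_mul, mul_inv_cancel, map_one, mul_one])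
    have := Same.mk (σ.perm π) π⁻¹
    rwa [← e] at this

theorem Same.mem {σ τ : D.St} (h : Same σ τ) {b : Brick S} (hb : b ∈ Set.range σ.β) : b ∈ Set.range τ.β := by
  cases h with
  | mk π =>
    obtain ⟨k, rfl⟩ := hb
    exact ⟨π.symm k, congrArg σ.β (π.apply_symm_apply k)⟩

theorem Same.range {σ τ : D.St} (h : Same σ τ) : Set.range σ.β = Set.range τ.β :=
  Set.ext fun _ => ⟨h.mem, h.symm.mem⟩

theorem St.split_perm (σ : D.St) (π : Equiv.Perm (Fin (σ.n + 2))) (j : Fin (σ.n + 2)) (s : S) :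
    (σ.perm π).split j s = (σ.split (π j) s).perm (liftP π j) :=
  St.ext' (show σ.P * D.Pm σ.n π * D.Sp σ.n j s = σ.P * D.Sp σ.n (π j) s * D.Pm (σ.n + 1) (liftP π j) by
    rw [mul_assoc, D.Pm_Sp, mul_assoc])

theorem Same.split {σ τ : D.St} (h : Same σ τ) {i : Fin (σ.n + 2)} {j : Fin (τ.n + 2)} (e : σ.β i = τ.β j)
    (s : S) : Same (σ.split i s) (τ.split j s) := by
  cases h with
  | mk π =>
    obtain rfl : i = π j := σ.β_inj e
    rw [St.split_perm]
    exact Same.mk _ _

/-- The lower half of a split. -/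
def lo (b : Brick S) (s : S) : Brick S := bapp b (bat s [false])
/-- The upper half of a split. -/
def hi (b : Brick S) (s : S) : Brick S := bapp b (bat s [true])

theorem lo_ne_hi (b c d : Brick S) (s : S) : bapp (lo b s) c ≠ bapp (hi b s) d := fun h => by
  unfold lo hi at h
  rw [bapp_assoc, bapp_assoc] at h
  have := congrFun (bapp_left_cancel h) s
  simp [bapp, bat] at this

theorem lo_ne_hi' (b : Brick S) (s : S) : lo b s ≠ hi b s := fun h =>
  lo_ne_hi b (fun _ => []) (fun _ => []) s (by rw [h])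

theorem St.split_lo (σ : D.St) (j : Fin (σ.n + 2)) (s : S) :
    (σ.split j s).β j.castSucc = lo (σ.β j) s := by
  show bapp (σ.β (par j j.castSucc)) (part j s (chi j j.castSucc)) = _
  rw [part_eq, show par j j.castSucc = j from Fin.ext (by simp [val_par])]
  simp [lo]

theorem St.split_hi (σ : D.St) (j : Fin (σ.n + 2)) (s : S) :
    (σ.split j s).β j.succ = hi (σ.β j) s := by
  show bapp (σ.β (par j j.succ)) (part j s (chi j j.succ)) = _
  rw [part_eq, show par j j.succ = j from Fin.ext (by simp [val_par])]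
  simp [hi]

theorem St.split_other (σ : D.St) (j : Fin (σ.n + 2)) (s : S) {k : Fin (σ.n + 2)} (h : k ≠ j) :
    (σ.split j s).β ((chi j).symm (some k)) = σ.β k := by
  show bapp (σ.β (par j _)) (part j s (chi j _)) = _
  rw [par_symm, Equiv.apply_symm_apply]
  simp [part, h]

theorem St.split_range (σ : D.St) (j : Fin (σ.n + 2)) (s : S) :
    Set.range (σ.split j s).β = (Set.range σ.β \ {σ.β j}) ∪ {lo (σ.β j) s, hi (σ.β j) s} := by
  ext c
  constructor
  · rintro ⟨k, rfl⟩
    obtain ⟨o, rfl⟩ := (chi j).symm.surjective k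
    cases o with
    | none =>
      rw [show (chi j).symm none = j.succ from Fin.ext (by simp), St.split_hi]
      exact Or.inr (Or.inr rfl)
    | some k =>
      by_cases h : k = j
      · subst h
        rw [show (chi k).symm (some k) = k.castSucc from Fin.ext (by rw [val_chi_symm_some]; simp), St.split_lo]
        exact Or.inr (Or.inl rfl)
      · rw [St.split_other σ j s h]
        exact Or.inl ⟨⟨k, rfl⟩, fun e => h (σ.β_inj e)⟩
  · rintro (⟨⟨k, rfl⟩, h⟩ | rfl | rfl)
    · exact ⟨_, St.split_other σ j s (fun e => h (congrArg σ.β e))⟩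
    · exact ⟨_, St.split_lo σ j s⟩
    · exact ⟨_, St.split_hi σ j s⟩

theorem St.lo_notMem (σ : D.St) (j : Fin (σ.n + 2)) (s : S) (a : Bool) :
    bapp (σ.β j) (bat s [a]) ∉ Set.range σ.β := by
  rintro ⟨k, h⟩
  obtain ⟨rfl, -⟩ := σ.hb_inj (i := k) (j := j) (x := fun _ _ => false)
    (y := hb (bat s [a]) fun _ _ => false) (by rw [h, hb_bapp])
  have := congrArg List.length (congrFun h s)
  simp [bapp, bat] at this

/-- Splits of different pieces commute. -/
theorem St.split_comm (σ : D.St) {i j : Fin (σ.n + 2)} (h : i ≠ j) (s t : S) :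
    ∃ (j' : Fin (σ.n + 1 + 2)) (i' : Fin (σ.n + 1 + 2)),
      (σ.split i s).β j' = σ.β j ∧ (σ.split j t).β i' = σ.β i ∧
      Same ((σ.split i s).split j' t) ((σ.split j t).split i' s) := by
  refine ⟨(chi i).symm (some j), (chi j).symm (some i), σ.split_other i s (Ne.symm h), σ.split_other j t h, ?_⟩
  have key : ((σ.split i s).split ((chi i).symm (some j)) t) = ((σ.split j t).split ((chi j).symm (some i)) s) := by
    refine St.ext' ?_
    show σ.P * D.Sp σ.n i s * D.Sp (σ.n + 1) _ t = σ.P * D.Sp σ.n j t * D.Sp (σ.n + 1) _ s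
    rw [mul_assoc, mul_assoc]
    congr 1
    have hv : i.val ≠ j.val := fun e => h (Fin.ext e)
    rcases Nat.lt_or_gt_of_ne hv with hlt | hlt
    · rw [show (chi i).symm (some j) = j.succ from
          Fin.ext (by rw [val_chi_symm_some, if_neg (by omega)]; simp),
        show (chi j).symm (some i) = i.castSucc from
          Fin.ext (by rw [val_chi_symm_some, if_pos (by omega)]; simp)]
      exact D.Sp_comm i j hlt s t
    · rw [show (chi i).symm (some j) = j.castSucc from
          Fin.ext (by rw [val_chi_symm_some, if_pos (by omega)]; simp),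
        show (chi j).symm (some i) = i.succ from
          Fin.ext (by rw [val_chi_symm_some, if_neg (by omega)]; simp)]
      exact (D.Sp_comm j i hlt t s).symm
  rw [key]
  exact Same.refl _

end Setup

/-- Binary trees of splits. -/
inductive Tree (S : Type) : Type where
  | leaf : Tree S
  | node (s : S) (l r : Tree S) : Tree S

/-- The tree with one split. -/
def Tree.single {S : Type} (s : S) : Tree S := .node s .leaf .leaf

variable {S : Type} [DecidableEq S]

/-- The bricks of a tree. -/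
def Tree.leaves : Tree S → Set (Brick S)
  | .leaf => {fun _ => []}
  | .node s l r => (bapp (bat s [false]) '' l.leaves) ∪ (bapp (bat s [true]) '' r.leaves)

theorem Tree.leaves_nonempty : ∀ T : Tree S, T.leaves.Nonempty
  | .leaf => ⟨_, rfl⟩
  | .node _ l _ => by
    obtain ⟨c, hc⟩ := Tree.leaves_nonempty l
    exact ⟨_, Or.inl ⟨c, hc, rfl⟩⟩

theorem bapp_image_comp (b c : Brick S) (A : Set (Brick S)) : bapp b '' (bapp c '' A) = bapp (bapp b c) '' A := by
  rw [Set.image_image]
  simp only [bapp_assoc]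

namespace Setup

variable {L : Type} [Group L] [MulAction L S] {D : Setup L S}

/-- A tree applied at a brick of a state. -/
inductive Acts : D.St → Brick S → Tree S → D.St → Prop
  | leaf {σ τ : D.St} {b : Brick S} (h : Same σ τ) (hb : b ∈ Set.range σ.β) : Acts σ b .leaf τ
  | node {σ ρ τ : D.St} {b : Brick S} {s : S} {l r : Tree S} (j : Fin (σ.n + 2)) (hj : σ.β j = b)
      (h₁ : Acts (σ.split j s) (lo b s) l ρ) (h₂ : Acts ρ (hi b s) r τ) : Acts σ b (.node s l r) τ

theorem Acts.present {σ τ : D.St} {b : Brick S} {T : Tree S} (h : Acts σ b T τ) : b ∈ Set.range σ.β := by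
  cases h with
  | leaf _ hb => exact hb
  | node j hj _ _ => exact ⟨j, hj⟩

theorem Acts.range {σ τ : D.St} {b : Brick S} {T : Tree S} (h : Acts σ b T τ) :
    Set.range τ.β = (Set.range σ.β \ {b}) ∪ (bapp b '' T.leaves) := by
  induction h with
  | leaf h hb =>
    rw [← h.range, Tree.leaves, Set.image_singleton, bapp_nil_right, Set.sdiff_union_of_subset (by simpa using hb)]
  | @node σ ρ τ b s l r j hj h₁ h₂ ih₁ ih₂ =>
    subst hj
    rw [ih₂, ih₁, St.split_range, Tree.leaves, Set.image_union, bapp_image_comp, bapp_image_comp]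
    have e1 : hi (σ.β j) s ∉ bapp (lo (σ.β j) s) '' l.leaves := by
      rintro ⟨c, _, e⟩
      exact lo_ne_hi (σ.β j) c (fun _ => []) s (by rw [e, bapp_nil_right])
    have e2 : hi (σ.β j) s ∉ Set.range σ.β := σ.lo_notMem j s true
    have e3 : lo (σ.β j) s ∉ Set.range σ.β := σ.lo_notMem j s false
    have e4 := lo_ne_hi' (σ.β j) s
    ext c
    simp only [Set.mem_union, Set.mem_sdiff, Set.mem_singleton_iff, Set.mem_insert_iff]
    constructor
    · rintro (⟨(⟨(⟨h1, h2⟩ | h1 | h1), h3⟩ | h1), h4⟩ | h1)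
      · exact Or.inl ⟨h1, h2⟩
      · exact absurd h1 h3
      · exact absurd h1 h4
      · exact Or.inr (Or.inl h1)
      · exact Or.inr (Or.inr h1)
    · rintro (⟨h1, h2⟩ | h1 | h1)
      · exact Or.inl ⟨Or.inl ⟨Or.inl ⟨h1, h2⟩, fun e => e3 (e ▸ h1)⟩, fun e => e2 (e ▸ h1)⟩
      · exact Or.inl ⟨Or.inr h1, fun e => e1 (e ▸ h1)⟩
      · exact Or.inr h1

theorem Acts.congr {σ σ' τ τ' : D.St} {b : Brick S} {T : Tree S} (h : Acts σ b T τ) (h₁ : Same σ σ')
    (h₂ : Same τ τ') : Acts σ' b T τ' := by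
  induction h generalizing σ' τ' with
  | leaf h hb => exact .leaf ((h₁.symm.trans h).trans h₂) (h₁.mem hb)
  | @node σ ρ τ b s l r j hj _ _ ih₁ ih₂ =>
    obtain ⟨k, hk⟩ := h₁.mem ⟨j, hj⟩
    exact .node k hk (ih₁ (h₁.split (hj.trans hk.symm) s) (Same.refl _)) (ih₂ (Same.refl _) h₂)

theorem Acts.other_mem {σ τ : D.St} {b c : Brick S} {T : Tree S} (h : Acts σ b T τ) (hc : c ∈ Set.range σ.β)
    (hne : c ≠ b) : c ∈ Set.range τ.β := by
  rw [h.range]
  exact Or.inl ⟨hc, hne⟩

theorem exists_acts : ∀ (T : Tree S) (σ : D.St) (b : Brick S), b ∈ Set.range σ.β → ∃ τ, Acts σ b T τ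
  | .leaf, σ, _, hb => ⟨σ, .leaf (Same.refl σ) hb⟩
  | .node s l r, σ, _, ⟨j, rfl⟩ => by
    obtain ⟨ρ, hρ⟩ := exists_acts l (σ.split j s) (lo (σ.β j) s) ⟨_, σ.split_lo j s⟩
    obtain ⟨τ, hτ⟩ := exists_acts r ρ (hi (σ.β j) s) (hρ.other_mem ⟨_, σ.split_hi j s⟩ (lo_ne_hi' _ _).symm)
    exact ⟨τ, .node j rfl hρ hτ⟩

theorem Acts.unique {σ τ : D.St} {b : Brick S} {T : Tree S} (h : Acts σ b T τ) :
    ∀ {σ' τ' : D.St}, Same σ σ' → Acts σ' b T τ' → Same τ τ' := by
  induction h with
  | leaf h hb =>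
    intro σ' τ' e h'
    cases h' with
    | leaf h' _ => exact (h.symm.trans e).trans h'
  | @node σ ρ τ b s l r j hj _ _ ih₁ ih₂ =>
    intro σ' τ' e h'
    cases h' with
    | node k hk h₁' h₂' => exact ih₂ (ih₁ (e.split (hj.trans hk.symm) s) h₁') h₂'

theorem Acts.split_other {σ τ : D.St} {b : Brick S} {T : Tree S} (h : Acts σ b T τ) :
    ∀ (j : Fin (σ.n + 2)) (t : S), σ.β j ≠ b →
      ∃ k : Fin (τ.n + 2), τ.β k = σ.β j ∧ Acts (σ.split j t) b T (τ.split k t) := by
  induction h with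
  | @leaf σ τ b h hb =>
    intro j t hne
    obtain ⟨k, hk⟩ := h.mem ⟨j, rfl⟩
    refine ⟨k, hk, .leaf (h.split hk.symm t) ?_⟩
    rw [σ.split_range]
    exact Or.inl ⟨hb, fun e => hne e.symm⟩
  | @node σ ρ τ b s l r i hi' h₁ _ ih₁ ih₂ =>
    intro j t hne
    have hij : i ≠ j := fun e => hne (e ▸ hi')
    obtain ⟨j', i', hj', hi'', hsame⟩ := σ.split_comm hij s t
    have hnlo : σ.β j ≠ lo b s := fun e => σ.lo_notMem i s false ⟨j, by rw [e, hi']; rfl⟩
    have hnhi : σ.β j ≠ hi b s := fun e => σ.lo_notMem i s true ⟨j, by rw [e, hi']; rfl⟩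
    obtain ⟨k₁, hk₁, hA₁⟩ := ih₁ j' t (by rw [hj']; exact hnlo)
    obtain ⟨k₂, hk₂, hA₂⟩ := ih₂ k₁ t (by rw [hk₁, hj']; exact hnhi)
    exact ⟨k₂, by rw [hk₂, hk₁, hj'], .node i' (by rw [hi'', hi']) (hA₁.congr hsame (Same.refl _)) hA₂⟩

/-- Trees at different bricks commute. -/
theorem Acts.swap : ∀ {U : Tree S} {σ ρ τ : D.St} {b c : Brick S} {T : Tree S},
    Acts σ b T ρ → Acts ρ c U τ → c ∈ Set.range σ.β → c ≠ b → ∃ ρ', Acts σ c U ρ' ∧ Acts ρ' b T τ
  | .leaf, σ, ρ, τ, b, c, T, h, h', hc, _ => by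
    cases h' with
    | leaf e _ => exact ⟨σ, .leaf (Same.refl σ) hc, h.congr (Same.refl σ) e⟩
  | .node s l r, σ, ρ, τ, b, c, T, h, h', hc, hne => by
    cases h' with
    | node k hk h₁ h₂ =>
      obtain ⟨j, hj⟩ := hc
      obtain ⟨k', hk', hA⟩ := h.split_other j s (by rw [hj]; exact hne)
      obtain rfl : k = k' := ρ.β_inj (by rw [hk, hk', hj])
      have hb' : b ∈ Set.range σ.β := h.present
      have hblo : lo c s ≠ b := fun e => σ.lo_notMem j s false (by
        rw [← e] at hb'; rw [hj]; exact hb')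
      have hbhi : hi c s ≠ b := fun e => σ.lo_notMem j s true (by
        rw [← e] at hb'; rw [hj]; exact hb')
      have hloMem : lo c s ∈ Set.range (σ.split j s).β := ⟨_, hj ▸ σ.split_lo j s⟩
      obtain ⟨ρ₁, hl, hT₁⟩ := Acts.swap hA h₁ hloMem hblo
      have hhiMem : hi c s ∈ Set.range ρ₁.β :=
        hl.other_mem ⟨_, hj ▸ σ.split_hi j s⟩ (lo_ne_hi' c s).symm
      obtain ⟨ρ₂, hr, hT₂⟩ := Acts.swap hT₁ h₂ hhiMem hbhi
      exact ⟨ρ₂, .node j hj hl hr, hT₂⟩

theorem acts_single {σ : D.St} {b : Brick S} {j : Fin (σ.n + 2)} (hj : σ.β j = b) (s : S) :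
    Acts σ b (.single s) (σ.split j s) := by
  subst hj
  exact .node j rfl (.leaf (Same.refl _) ⟨_, σ.split_lo j s⟩) (.leaf (Same.refl _) ⟨_, σ.split_hi j s⟩)

end Setup

end Vale.P193.SV
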