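import Vale.Agent.P193.SV.States

/-!
P193, Thm B: a tree acts through its set of bricks only, and any two trees have a common refinement.
-/

namespace Vale.P193.SV

variable {S : Type} [DecidableEq S]

/-- All bricks of the tree are constrained at `t`. -/
def Tree.Con (t : S) (T : Tree S) : Prop := ∀ c ∈ T.leaves, c t ≠ []

theorem half_ne (t : S) (c d : Brick S) : bapp (bat t [false]) c ≠ bapp (bat t [true]) d := fun h => by
  have := congrFun h t
  simp [bapp, bat] at this

theorem half_union_inj (t : S) {A A' B B' : Set (Brick S)}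
    (h : bapp (bat t [false]) '' A ∪ bapp (bat t [true]) '' B =
      bapp (bat t [false]) '' A' ∪ bapp (bat t [true]) '' B') : A = A' ∧ B = B' := by
  constructor
  · ext c
    constructor <;> intro hc
    · have h1 : bapp (bat t [false]) c ∈ bapp (bat t [false]) '' A' ∪ bapp (bat t [true]) '' B' := h ▸ Or.inl ⟨c, hc, rfl⟩
      rcases h1 with ⟨d, hd, e⟩ | ⟨d, _, e⟩
      · exact bapp_left_cancel e ▸ hd
      · exact absurd e.symm (half_ne t c d)
    · have h1 : bapp (bat t [false]) c ∈ bapp (bat t [false]) '' A ∪ bapp (bat t [true]) '' B := h ▸ Or.inl ⟨c, hc, rfl⟩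
      rcases h1 with ⟨d, hd, e⟩ | ⟨d, _, e⟩
      · exact bapp_left_cancel e ▸ hd
      · exact absurd e.symm (half_ne t c d)
  · ext c
    constructor <;> intro hc
    · have h1 : bapp (bat t [true]) c ∈ bapp (bat t [false]) '' A' ∪ bapp (bat t [true]) '' B' := h ▸ Or.inr ⟨c, hc, rfl⟩
      rcases h1 with ⟨d, _, e⟩ | ⟨d, hd, e⟩
      · exact absurd e (half_ne t d c)
      · exact bapp_left_cancel e ▸ hd
    · have h1 : bapp (bat t [true]) c ∈ bapp (bat t [false]) '' A ∪ bapp (bat t [true]) '' B := h ▸ Or.inr ⟨c, hc, rfl⟩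
      rcases h1 with ⟨d, _, e⟩ | ⟨d, hd, e⟩
      · exact absurd e (half_ne t d c)
      · exact bapp_left_cancel e ▸ hd

theorem Tree.leaves_cross {s t : S} (h : s ≠ t) (a c d e : Tree S) :
    (Tree.node t (.node s a d) (.node s c e)).leaves = (Tree.node s (.node t a c) (.node t d e)).leaves := by
  simp only [Tree.leaves, Set.image_union, bapp_image_comp, bat_comm h]
  ext x
  simp only [Set.mem_union]
  tauto

namespace Setup

variable {L : Type} [Group L] [MulAction L S] {D : Setup L S}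

/-- Doing the upper half first. -/
theorem acts_node_iff {σ τ : D.St} {b : Brick S} {s : S} {l r : Tree S} :
    Acts σ b (.node s l r) τ ↔
      ∃ j, σ.β j = b ∧ ∃ ρ, Acts (σ.split j s) (hi b s) r ρ ∧ Acts ρ (lo b s) l τ := by
  constructor
  · intro h
    cases h with
    | node j hj h₁ h₂ =>
      obtain ⟨ρ, hr, hl⟩ := h₁.swap h₂ (⟨_, hj ▸ σ.split_hi j s⟩) (lo_ne_hi' b s).symm
      exact ⟨j, hj, ρ, hr, hl⟩
  · rintro ⟨j, hj, ρ, hr, hl⟩
    obtain ⟨ρ', hl', hr'⟩ := hr.swap hl (⟨_, hj ▸ σ.split_lo j s⟩) (lo_ne_hi' b s)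
    exact .node j hj hl' hr'

/-- The state after splitting piece `j` by `s` and both halves by `t`. -/
noncomputable abbrev St.quad (σ : D.St) (j : Fin (σ.n + 2)) (s t : S) : D.St :=
  ((σ.split j s).split j.succ t).split j.castSucc.castSucc t

theorem acts_quad {σ : D.St} {b : Brick S} {j : Fin (σ.n + 2)} (hj : σ.β j = b) (s t : S) :
    Acts σ b (.node s (.single t) (.single t)) (σ.quad j s t) := by
  subst hj
  refine acts_node_iff.2 ⟨j, rfl, _, acts_single (σ.split_hi j s) t, acts_single ?_ t⟩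
  have e : j.castSucc.castSucc = (chi j.succ).symm (some j.castSucc) :=
    Fin.ext (by rw [val_chi_symm_some]; simp)
  rw [e, St.split_other (σ.split j s) j.succ t (Fin.castSucc_lt_succ (i := j)).ne]
  exact σ.split_lo j s

theorem acts_cross_single {σ τ : D.St} {b : Brick S} {s t : S} (h : s ≠ t)
    (hA : Acts σ b (.node s (.single t) (.single t)) τ) : Acts σ b (.node t (.single s) (.single s)) τ := by
  obtain ⟨j, hj⟩ := hA.present
  refine (acts_quad hj t s).congr (Same.refl σ) ?_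
  refine Same.trans ?_ ((acts_quad hj s t).unique (Same.refl σ) hA)
  have e : σ.quad j s t = (σ.quad j t s).perm (asw (σ.n + 4) (j.val + 1)) :=
    St.ext' (show σ.P * D.Sp σ.n j s * D.Sp (σ.n + 1) j.succ t * D.Sp (σ.n + 2) j.castSucc.castSucc t =
      σ.P * D.Sp σ.n j t * D.Sp (σ.n + 1) j.succ s * D.Sp (σ.n + 2) j.castSucc.castSucc s *
        D.Pm (σ.n + 3) (asw (σ.n + 4) (j.val + 1)) by
      have := congrArg (σ.P * ·) (D.Sp_cross σ.n j h)
      simpa only [mul_assoc] using this)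
  rw [e]
  exact Same.mk _ _

theorem acts_node2 {σ τ : D.St} {b : Brick S} {s t : S} {a c d e : Tree S} :
    Acts σ b (.node s (.node t a c) (.node t d e)) τ ↔
      ∃ π π₁ π₂ π₃, Acts σ b (.node s (.single t) (.single t)) π ∧ Acts π (lo (lo b s) t) a π₁ ∧
        Acts π₁ (hi (lo b s) t) c π₂ ∧ Acts π₂ (lo (hi b s) t) d π₃ ∧ Acts π₃ (hi (hi b s) t) e τ := by
  have nlo : lo (lo b s) t ≠ hi b s := fun h => lo_ne_hi b (bat t [false]) (fun _ => []) s (by rw [bapp_nil_right]; exact h)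
  have nhi : hi (lo b s) t ≠ hi b s := fun h => lo_ne_hi b (bat t [true]) (fun _ => []) s (by rw [bapp_nil_right]; exact h)
  constructor
  · intro h
    cases h with
    | node j hj h₁ h₂ =>
      cases h₁ with
      | node k hk ha hc =>
        cases h₂ with
        | node i hi' hd he =>
          have m1 : hi b s ∈ Set.range (σ.split j s).β := ⟨_, hj ▸ σ.split_hi j s⟩
          have m2 : hi b s ∈ Set.range ((σ.split j s).split k t).β := by
            rw [St.split_range, hk]
            exact Or.inl ⟨m1, (lo_ne_hi' b s).symm⟩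
          have m3 := ha.other_mem m2 nlo.symm
          obtain ⟨ω, hω, hc'⟩ := hc.swap (acts_single hi' t) m3 nhi.symm
          obtain ⟨π, hπ, ha'⟩ := ha.swap hω m2 nlo.symm
          exact ⟨π, _, _, _, .node j hj (acts_single hk t) hπ, ha', hc', hd, he⟩
  · rintro ⟨π, π₁, π₂, π₃, hπ, ha, hc, hd, he⟩
    cases hπ with
    | node j hj h₁ h₂ =>
      cases h₁ with
      | node k hk h1 h2 =>
        cases h1 with
        | leaf e1 _ =>
          cases h2 with
          | leaf e2 _ =>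
            have h₂' := h₂.congr (e1.trans e2).symm (Same.refl _)
            have mlo : lo (lo b s) t ∈ Set.range ((σ.split j s).split k t).β := ⟨_, hk ▸ St.split_lo _ k t⟩
            have mhi : hi (lo b s) t ∈ Set.range ((σ.split j s).split k t).β := ⟨_, hk ▸ St.split_hi _ k t⟩
            obtain ⟨ω, ha', h₂''⟩ := h₂'.swap ha mlo nlo
            obtain ⟨ω', hc', h₂'''⟩ := h₂''.swap hc (ha'.other_mem mhi (lo_ne_hi' (lo b s) t).symm) nhi
            refine .node j hj (.node k hk ha' hc') ?_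
            cases h₂''' with
            | node i hi' f1 f2 =>
              cases f1 with
              | leaf g1 _ =>
                cases f2 with
                | leaf g2 _ => exact .node i hi' (hd.congr (g1.trans g2).symm (Same.refl _)) he

theorem lo_lo_comm {b : Brick S} {s t : S} (h : s ≠ t) :
    lo (lo b s) t = lo (lo b t) s ∧ hi (lo b s) t = lo (hi b t) s ∧ lo (hi b s) t = hi (lo b t) s ∧
      hi (hi b s) t = hi (hi b t) s := by
  refine ⟨?_, ?_, ?_, ?_⟩ <;> simp only [lo, hi, bapp_assoc, bat_comm h]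

theorem acts_cross {σ τ : D.St} {b : Brick S} {s t : S} (h : s ≠ t) {a c d e : Tree S}
    (hA : Acts σ b (.node s (.node t a c) (.node t d e)) τ) :
    Acts σ b (.node t (.node s a d) (.node s c e)) τ := by
  obtain ⟨π, π₁, π₂, π₃, hπ, ha, hc, hd, he⟩ := acts_node2.1 hA
  obtain ⟨e1, e2, e3, e4⟩ := lo_lo_comm (b := b) h
  have hπ' := acts_cross_single h hπ
  have mh : lo (hi b s) t ∈ Set.range π₁.β := by
    refine ha.other_mem ?_ ?_
    · rw [hπ.range]
      refine Or.inr ⟨bapp (bat s [true]) (bat t [false]), Or.inr ⟨bat t [false], Or.inl ⟨_, rfl, ?_⟩, rfl⟩, ?_⟩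
      · simp
      · simp [lo, hi, bapp_assoc]
    · intro q
      exact lo_ne_hi b (bat t [false]) (bat t [false]) s q.symm
  obtain ⟨ω, hd', hc'⟩ := hc.swap hd mh (fun q => lo_ne_hi b (bat t [true]) (bat t [false]) s q.symm)
  refine acts_node2.2 ⟨π, π₁, ω, π₃, hπ', ?_, ?_, ?_, ?_⟩
  · rw [← e1]; exact ha
  · rw [← e3]; exact hd'
  · rw [← e2]; exact hc'
  · rw [← e4]; exact he

theorem exists_root (t : S) : ∀ T : Tree S, T.Con t →
    ∃ l r : Tree S, (Tree.node t l r).leaves = T.leaves ∧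
      ∀ {σ τ : D.St} {b : Brick S}, Acts σ b T τ → Acts σ b (.node t l r) τ
  | .leaf, h => absurd rfl (h _ rfl)
  | .node s l r, h => by
    by_cases hst : s = t
    · subst hst; exact ⟨l, r, rfl, fun h => h⟩
    · have hl : l.Con t := fun c hc => by
        have := h _ (Or.inl ⟨c, hc, rfl⟩)
        simpa [bapp, bat, Ne.symm hst] using this
      have hr : r.Con t := fun c hc => by
        have := h _ (Or.inr ⟨c, hc, rfl⟩)
        simpa [bapp, bat, Ne.symm hst] using this
      obtain ⟨a, c, e1, f1⟩ := exists_root t l hl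
      obtain ⟨d, e, e2, f2⟩ := exists_root t r hr
      refine ⟨.node s a d, .node s c e, ?_, fun hA => acts_cross hst ?_⟩
      · rw [Tree.leaves_cross hst]
        show _ ∪ _ = _
        rw [e1, e2]
        rfl
      · cases hA with
        | node j hj h₁ h₂ => exact .node j hj (f1 h₁) (f2 h₂)

/-- A tree acts through its bricks only. -/
theorem acts_of_leaves : ∀ (U T : Tree S), T.leaves = U.leaves → ∀ {σ τ : D.St} {b : Brick S},
    Acts σ b T τ → Acts σ b U τ
  | .leaf, .leaf, _, _, _, _, h => h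
  | .leaf, .node s l r, e, _, _, _, _ => by
    obtain ⟨c, hc⟩ := l.leaves_nonempty
    have h1 : bapp (bat s [false]) c ∈ Tree.leaves Tree.leaf := e ▸ Or.inl ⟨c, hc, rfl⟩
    have := congrFun (Set.mem_singleton_iff.1 h1) s
    simp [bapp, bat] at this
  | .node t ul ur, T, e, σ, τ, b, h => by
    have hcon : T.Con t := by
      intro c hc
      rw [e] at hc
      rcases hc with ⟨d, _, rfl⟩ | ⟨d, _, rfl⟩ <;> simp [bapp, bat]
    obtain ⟨l, r, e1, f⟩ := exists_root (D := D) t T hcon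
    obtain ⟨el, er⟩ := half_union_inj t (e1.trans e)
    cases f h with
    | node j hj h₁ h₂ => exact .node j hj (acts_of_leaves ul l el h₁) (acts_of_leaves ur r er h₂)

theorem acts_graft : ∀ {T : Tree S} {σ τ τ' : D.St} {b l : Brick S} {U : Tree S},
    Acts σ b T τ → l ∈ T.leaves → Acts τ (bapp b l) U τ' → ∃ T', Acts σ b T' τ'
  | .leaf, σ, τ, τ', b, l, U, h, hl, h' => by
    cases h with
    | leaf e _ =>
      rw [Set.mem_singleton_iff.1 hl, bapp_nil_right] at h'
      exact ⟨U, h'.congr e.symm (Same.refl _)⟩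
  | .node s tl tr, σ, τ, τ', b, _, U, h, Or.inl ⟨l, hl, rfl⟩, h' => by
    obtain ⟨j, hj, ρ, hr, hl'⟩ := acts_node_iff.1 h
    obtain ⟨T', hT'⟩ := acts_graft hl' hl (by rw [lo, bapp_assoc]; exact h')
    exact ⟨.node s T' tr, acts_node_iff.2 ⟨j, hj, ρ, hr, hT'⟩⟩
  | .node s tl tr, σ, τ, τ', b, _, U, h, Or.inr ⟨l, hl, rfl⟩, h' => by
    cases h with
    | node j hj h₁ h₂ =>
      obtain ⟨T', hT'⟩ := acts_graft h₂ hl (by rw [hi, bapp_assoc]; exact h')
      exact ⟨.node s tl T', .node j hj h₁ hT'⟩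

/-- Refinement by splits inside the brick `c`. -/
inductive ExtIn (c : Brick S) : D.St → D.St → Prop
  | refl {σ τ : D.St} (h : Same σ τ) : ExtIn c σ τ
  | step {σ ρ τ : D.St} (h : ExtIn c σ ρ) (k : Fin (ρ.n + 2)) (l : Brick S) (hk : ρ.β k = bapp c l) (s : S)
      (e : Same (ρ.split k s) τ) : ExtIn c σ τ

theorem ExtIn.same_right {c : Brick S} {σ τ τ' : D.St} (h : ExtIn c σ τ) (e : Same τ τ') : ExtIn c σ τ' := by
  cases h with
  | refl h => exact .refl (h.trans e)
  | step h k l hk s e' => exact .step h k l hk s (e'.trans e)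

theorem ExtIn.trans {c : Brick S} {σ τ ω : D.St} (h : ExtIn c σ τ) (h' : ExtIn c τ ω) : ExtIn c σ ω := by
  induction h' with
  | refl e => exact h.same_right e
  | step _ k l hk s e ih => exact .step ih k l hk s e

theorem ExtIn.mono {c d : Brick S} {σ τ : D.St} (h : ExtIn (bapp c d) σ τ) : ExtIn c σ τ := by
  induction h with
  | refl e => exact .refl e
  | step _ k l hk s e ih => exact .step ih k (bapp d l) (by rw [hk, bapp_assoc]) s e

theorem Acts.ext {σ τ : D.St} {b : Brick S} {T : Tree S} (h : Acts σ b T τ) : ExtIn b σ τ := by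
  induction h with
  | leaf e _ => exact .refl e
  | @node σ ρ τ b s l r j hj _ _ ih₁ ih₂ =>
    have h0 : ExtIn b σ (σ.split j s) :=
      .step (.refl (Same.refl σ)) j (fun _ => []) (by rw [hj, bapp_nil_right]) s (Same.refl _)
    exact h0.trans (ih₁.mono.trans ih₂.mono)

theorem ExtIn.carry {c d : Brick S} {ρ ρ' τ : D.St} {T : Tree S} (h : ExtIn c ρ ρ')
    (hd : ∀ l, bapp c l ≠ d) (hA : Acts ρ d T τ) : ∃ τ', Acts ρ' d T τ' ∧ ExtIn c τ τ' := by
  induction h with
  | refl e => exact ⟨τ, hA.congr e (Same.refl τ), .refl (Same.refl τ)⟩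
  | step _ k l hk s e ih =>
    obtain ⟨τ₁, hA₁, hE₁⟩ := ih
    obtain ⟨i, hi', hA₂⟩ := hA₁.split_other k s (by rw [hk]; exact hd l)
    exact ⟨_, hA₂.congr e (Same.refl _), .step hE₁ i l (hi'.trans hk) s (Same.refl _)⟩

theorem exists_con (t : S) : ∀ (U : Tree S) {σ τ : D.St} {b : Brick S}, Acts σ b U τ →
    ∃ U' τ', Acts σ b U' τ' ∧ ExtIn b τ τ' ∧ U'.Con t
  | .leaf, σ, τ, b, h => by
    cases h with
    | leaf e hb =>
      obtain ⟨j, hj⟩ := hb
      obtain ⟨k, hk⟩ := e.mem ⟨j, hj⟩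
      refine ⟨.single t, τ.split k t, (acts_single hk t).congr e.symm (Same.refl _),
        (acts_single hk t).ext, ?_⟩
      rintro c (⟨d, _, rfl⟩ | ⟨d, _, rfl⟩) <;> simp [bapp, bat]
  | .node s l r, σ, τ, b, h => by
    by_cases hst : s = t
    · subst hst
      refine ⟨_, τ, h, .refl (Same.refl τ), ?_⟩
      rintro c (⟨d, _, rfl⟩ | ⟨d, _, rfl⟩) <;> simp [bapp, bat]
    · cases h with
      | node j hj h₁ h₂ =>
        obtain ⟨r', τ₁, hr, hE₁, hcr⟩ := exists_con t r h₂
        obtain ⟨ρ', hr', hl'⟩ := h₁.swap hr ⟨_, hj ▸ σ.split_hi j s⟩ (lo_ne_hi' b s).symm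
        obtain ⟨l', τ₂, hl, hE₂, hcl⟩ := exists_con t l hl'
        refine ⟨.node s l' r', τ₂, acts_node_iff.2 ⟨j, hj, ρ', hr', hl⟩, hE₁.mono.trans hE₂.mono, ?_⟩
        rintro c (⟨d, hd, rfl⟩ | ⟨d, hd, rfl⟩) <;> simp [bapp, bat, Ne.symm hst]
        · exact hcl d hd
        · exact hcr d hd

/-- Common refinement. -/
theorem exists_common : ∀ (T : Tree S) {σ τ τu : D.St} {b : Brick S} {U : Tree S},
    Acts σ b T τ → Acts σ b U τu → ∃ V ω, Acts σ b V ω ∧ ExtIn b τ ω ∧ ExtIn b τu ω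
  | .leaf, σ, τ, τu, b, U, h, hu => by
    cases h with
    | leaf e _ =>
      exact ⟨U, τu, hu, (hu.congr e (Same.refl _)).ext, .refl (Same.refl _)⟩
  | .node t tl tr, σ, τ, τu, b, U, h, hu => by
    obtain ⟨U', τu', hu', hE, hcon⟩ := exists_con t U hu
    obtain ⟨ul, ur, -, f⟩ := exists_root (D := D) t U' hcon
    obtain ⟨j, hj, ρR, hR, hL⟩ := acts_node_iff.1 h
    obtain ⟨j', hj', ρU, hUR, hUL⟩ := acts_node_iff.1 (f hu')
    obtain rfl : j = j' := σ.β_inj (hj.trans hj'.symm)
    obtain ⟨VR, ωR, hV, hER, hEU⟩ := exists_common tr hR hUR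
    have hd : ∀ l, bapp (hi b t) l ≠ lo b t := fun l q =>
      lo_ne_hi b (fun _ => []) l t (by rw [bapp_nil_right, q])
    obtain ⟨τ₁, hL₁, hF₁⟩ := hER.carry hd hL
    obtain ⟨τ₂, hL₂, hF₂⟩ := hEU.carry hd hUL
    obtain ⟨VL, ω, hW, hG₁, hG₂⟩ := exists_common tl hL₁ hL₂
    exact ⟨.node t VL VR, ω, acts_node_iff.2 ⟨j, hj, ωR, hV, hW⟩, hF₁.mono.trans hG₁.mono,
      hE.trans (hF₂.mono.trans hG₂.mono)⟩

end Setup

end Vale.P193.SV
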